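import Mathlib

/-!
# P174: an algebraic Piola identity
-/

namespace Vale.Agent.P174

open Matrix Finset

variable {R : Type*} [CommRing R] [Algebra ℂ R]

theorem der_prod {κ : Type*} [DecidableEq κ] (D : Derivation ℂ R R) (s : Finset κ) (f : κ → R) :
    D (∏ i ∈ s, f i) = ∑ i ∈ s, D (f i) * ∏ j ∈ s.erase i, f j := by
  induction s using Finset.induction_on with
  | empty => simp
  | insert a s ha ih =>
    rw [prod_insert ha, sum_insert ha, erase_insert ha, D.leibniz, ih, smul_eq_mul, smul_eq_mul,
      mul_sum, add_comm, mul_comm]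
    congr 1
    refine sum_congr rfl fun i hi => ?_
    have hia : a ≠ i := fun e => ha (e ▸ hi)
    rw [erase_insert_of_ne hia, prod_insert fun h => ha (mem_of_mem_erase h)]
    ring

theorem der_det {κ : Type*} [Fintype κ] [DecidableEq κ] (D : Derivation ℂ R R) (M : Matrix κ κ R) :
    D M.det = ∑ i, (M.updateCol i fun b => D (M b i)).det := by
  simp only [det_apply', map_sum]
  rw [sum_comm]
  refine sum_congr rfl fun σ _ => ?_
  rw [D.leibniz, D.map_intCast, smul_zero, add_zero, der_prod, smul_eq_mul, mul_sum]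
  refine sum_congr rfl fun i _ => ?_
  rw [← mul_prod_erase _ _ (mem_univ i), updateCol_self]
  congr 2
  exact prod_congr rfl fun j hj => by rw [updateCol_ne (ne_of_mem_erase hj)]

variable {ι : Type*} [Fintype ι] [DecidableEq ι]

/-- The matrix `θ` with the extra column `v`. -/
def nm (θ : Option ι → ι → R) (v : Option ι → R) : Matrix (Option ι) (Option ι) R :=
  of fun a c => c.elim (v a) (θ a)

/-- Two columns replaced. -/
noncomputable def dd (θ : Option ι → ι → R) (i : ι) (v w : Option ι → R) : R :=
  ((nm θ v).updateCol (some i) w).det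

variable (θ : Option ι → ι → R)

omit [Algebra ℂ R] in
theorem cramer_sum {κ : Type*} [Fintype κ] [DecidableEq κ] (A : Matrix κ κ R) (i : κ)
    (v : κ → R) : (A.updateCol i v).det = ∑ a, v a * (A.updateCol i (Pi.single a 1)).det := by
  simp only [← cramer_apply]
  conv_lhs => rw [pi_eq_sum_univ' v, map_sum, Finset.sum_apply]
  simp only [map_smul, Pi.smul_apply, smul_eq_mul]

omit [Algebra ℂ R] [CommRing R] [Fintype ι] in
theorem nm_update (v w : Option ι → R) : (nm θ v).updateCol none w = nm θ w := by
  ext a c; cases c <;> simp [nm]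

omit [Algebra ℂ R] in
theorem det_nm_sum (v : Option ι → R) :
    (nm θ v).det = ∑ a, v a * (nm θ (Pi.single a 1)).det := by
  rw [← nm_update θ v v, cramer_sum]; simp only [nm_update]

omit [Algebra ℂ R] in
theorem dd_swap (i : ι) (v w : Option ι → R) : dd θ i v w = -dd θ i w v := by
  have : (nm θ v).updateCol (some i) w =
      ((nm θ w).updateCol (some i) v).submatrix id (Equiv.swap none (some i)) := by
    ext a c
    rcases c with _ | c
    · simp [nm]
    · by_cases h : c = i
      · subst h; simp [nm]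
      · simp [nm, h, Equiv.swap_apply_of_ne_of_ne]
  rw [dd, this, det_permute', Equiv.Perm.sign_swap (by simp), dd]
  simp

omit [Algebra ℂ R] in
theorem dd_sum (i : ι) (v w : Option ι → R) :
    dd θ i v w = ∑ a, ∑ b, v a * w b * dd θ i (Pi.single a 1) (Pi.single b 1) := by
  have h : ∀ v w : Option ι → R, dd θ i v w = ∑ b, w b * dd θ i v (Pi.single b 1) :=
    fun v w => cramer_sum _ _ _
  rw [dd_swap, h, ← sum_neg_distrib]
  refine sum_congr rfl fun a _ => ?_
  rw [← mul_neg, ← dd_swap, h, mul_sum]
  exact sum_congr rfl fun b _ => by ring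

omit [Algebra ℂ R] in
theorem dd_col (i k l : ι) : dd θ i (fun a => θ a k) (fun a => θ a l) = 0 := by
  have h : ∀ k l, k ≠ i → dd θ i (fun a => θ a k) (fun a => θ a l) = 0 := fun k l hk =>
    det_zero_of_column_eq (i := none) (j := some k) (by simp) fun a => by
      simp [nm, hk]
  by_cases hk : k = i
  · by_cases hl : l = i
    · exact det_zero_of_column_eq (i := none) (j := some i) (by simp) fun a => by
        simp [nm, hk, hl]
    · rw [dd_swap, h l k hl, neg_zero]
  · exact h k l hk

omit [Algebra ℂ R] in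
theorem dd_lap (a b c : Option ι) :
    ∑ i, θ c i * dd θ i (Pi.single a 1) (Pi.single b 1) =
      (if c = b then (nm θ (Pi.single a 1)).det else 0) -
        if c = a then (nm θ (Pi.single b 1)).det else 0 := by
  have := congrFun (mulVec_cramer (nm θ (Pi.single a 1)) (Pi.single b 1)) c
  simp only [mulVec, dotProduct, Fintype.sum_option, cramer_apply, nm_update, Pi.smul_apply,
    smul_eq_mul] at this
  have e : ∑ i, θ c i * dd θ i (Pi.single a 1) (Pi.single b 1) =
      ∑ i, nm θ (Pi.single a 1) c (some i) *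
        ((nm θ (Pi.single a 1)).updateCol (some i) (Pi.single b 1)).det := rfl
  rw [e, eq_sub_of_add_eq' this]
  simp [nm, Pi.single_apply]

theorem piola {T : Type*} [Fintype T] (X : Option ι → Derivation ℂ R R)
    (γ : Option ι → Option ι → Option ι → R) (κ : ι → T → R) (k l : ι → T → ι)
    (hMC : ∀ a b i, X a (θ b i) - X b (θ a i) =
      ∑ c, γ a b c * θ c i + ∑ t, κ i t * (θ a (k i t) * θ b (l i t)))
    (hγ : ∀ a b c, γ a b c = -γ b a c) (htr : ∀ a, ∑ b, γ a b b = 0)
    (φ : R) (ψ : ι → R) (hφ : ∀ a, X a φ = ∑ i, ψ i * θ a i) :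
    ∑ a, X a (φ * (nm θ (Pi.single a 1)).det) = 0 := by
  set δ : Option ι → Option ι → R := fun a => Pi.single a 1 with hδ
  have h1 : ∑ a, X a φ * (nm θ (δ a)).det = 0 := by
    rw [← det_nm_sum θ fun a => X a φ, ← nm_update θ 0]
    have := det_updateCol_sum (nm θ 0) none fun c => c.elim 0 ψ
    simp only [Fintype.sum_option, Option.elim, smul_eq_mul, zero_mul, zero_add] at this
    simp only [hφ]
    exact this
  have h2 : ∀ a, X a (nm θ (δ a)).det = ∑ b, ∑ i, X a (θ b i) * dd θ i (δ a) (δ b) := fun a => by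
    rw [der_det, Fintype.sum_option, sum_comm, nm_update,
      det_eq_zero_of_column_eq_zero (A := nm θ _) none fun b => ?_, zero_add]
    · exact sum_congr rfl fun i _ => cramer_sum _ _ _
    · simp only [nm, of_apply, Option.elim, hδ, Pi.single_apply]
      split_ifs <;> simp
  set S := ∑ a, ∑ b, ∑ i, X a (θ b i) * dd θ i (δ a) (δ b) with hS
  have h3 : S = -∑ a, ∑ b, ∑ i, X b (θ a i) * dd θ i (δ a) (δ b) := by
    rw [hS, sum_comm]
    simp only [← sum_neg_distrib]
    exact sum_congr rfl fun a _ => sum_congr rfl fun b _ => sum_congr rfl fun i _ => by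
      rw [dd_swap, mul_neg]
  have h4 : ∑ a, ∑ b, ∑ i, (∑ t, κ i t * (θ a (k i t) * θ b (l i t))) * dd θ i (δ a) (δ b) = 0 := by
    rw [sum_congr rfl fun a _ => sum_comm, sum_comm]
    refine sum_eq_zero fun i _ => ?_
    simp only [sum_mul]
    rw [sum_congr rfl fun a _ => sum_comm, sum_comm]
    refine sum_eq_zero fun t _ => ?_
    have := dd_sum θ i (fun a => θ a (k i t)) fun a => θ a (l i t)
    rw [dd_col] at this
    simp only [mul_assoc (κ i t), ← mul_sum, ← this, hδ, mul_zero]
  have h5 : ∑ a, ∑ b, ∑ i, (∑ c, γ a b c * θ c i) * dd θ i (δ a) (δ b) = 0 := by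
    have e : ∀ a b, ∑ i, (∑ c, γ a b c * θ c i) * dd θ i (δ a) (δ b) =
        γ a b b * (nm θ (δ a)).det + γ b a a * (nm θ (δ b)).det := fun a b => by
      simp only [sum_mul]
      rw [sum_comm]
      simp only [mul_assoc, ← mul_sum, hδ, dd_lap, mul_sub, mul_ite, mul_zero, sum_sub_distrib,
        sum_ite_eq', mem_univ, if_true]
      rw [hγ b a a]; ring
    simp only [e, sum_add_distrib]
    rw [sum_comm (f := fun a b => γ b a a * (nm θ (δ b)).det)]
    simp only [← sum_mul, htr, zero_mul, sum_const_zero, add_zero]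
  have h6 : S + S = 0 := by
    nth_rewrite 2 [h3]
    rw [hS, ← sub_eq_add_neg]
    simp only [← sum_sub_distrib, ← sub_mul, hMC, add_mul, sum_add_distrib, h4, h5, add_zero]
  have h7 : S = 0 := by
    have : (2⁻¹ : ℂ) • (S + S) = S := by rw [← two_smul ℂ, smul_smul]; norm_num
    rw [← this, h6, smul_zero]
  simp only [Derivation.leibniz, smul_eq_mul, sum_add_distrib, ← mul_sum]
  rw [sum_congr rfl fun a _ => h2 a, ← hS, h7, mul_zero, zero_add, ← h1]
  exact sum_congr rfl fun a _ => mul_comm _ _

omit [Algebra ℂ R] in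
theorem det_nm_none : (nm θ (Pi.single none 1)).det = (of fun a i => θ (some a) i).det := by
  have e : (nm θ (Pi.single none 1)).submatrix (Equiv.optionEquivSumPUnit.{0} ι).symm
      (Equiv.optionEquivSumPUnit.{0} ι).symm =
      fromBlocks (of fun a i => θ (some a) i) 0 (of fun _ i => θ none i) 1 := by
    ext (a | a) (c | c) <;> simp [nm]
  rw [← det_submatrix_equiv_self (Equiv.optionEquivSumPUnit.{0} ι).symm, e, det_fromBlocks_zero₁₂]
  simp

end Vale.Agent.P174
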