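import Vale.Agent.P174.Core

/-!
# P174: from words to permutations
-/

namespace Vale.Agent.P174

open Finset Monoid

variable {G : Type*} [Group G] {J : Type}

/-- The value of a letter. -/
def vl (x : Option (J × Bool) × G) : Coprod G (FreeGroup J) := Coprod.inr (lv x.1) * Coprod.inl x.2

/-- The exponent sum of one variable. -/
def ex [DecidableEq J] (j : J) : Coprod G (FreeGroup J) →* Multiplicative ℤ :=
  Coprod.lift 1 (FreeGroup.lift fun k => Multiplicative.ofAdd (if k = j then 1 else 0))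

theorem nodup_blocks {A I : Type*} {blk : A → List I} (hn : ∀ t, (blk t).Nodup)
    (h : ∀ i t t', i ∈ blk t → i ∈ blk t' → t = t') {Z : List A} (hZ : Z.Nodup) :
    (Z.flatMap blk).Nodup :=
  List.nodup_flatMap.mpr ⟨fun t _ => hn t,
    hZ.pairwise_of_forall_ne fun t _ t' _ hne i hi hi' => hne (h i t t' hi hi')⟩

theorem prod_blocks {A I M : Type*} [Monoid M] (blk : A → List I) (v : I → M) (Z : List A) :
    ((Z.flatMap blk).map v).prod = (Z.map fun t => ((blk t).map v).prod).prod := by
  induction Z with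
  | nil => rfl
  | cons t Z ih => simp [ih]

variable {S Φ Pp : Type} [Fintype J] [DecidableEq J] [Fintype S] [DecidableEq S] [Fintype Φ]
  [DecidableEq Φ] [Fintype Pp] [DecidableEq Pp]

omit [Fintype Pp] [DecidableEq Pp] in
theorem exists_L {lP : Pp → Option (J × Bool) × G} {ty : Pp → J} {F : J → List Pp}
    (hn : ∀ i, (F i).Nodup) (hm : ∀ p i, p ∈ F i ↔ ty p = i) {d : ℕ}
    (hex : ∀ i j, ex j ((F i).map fun p => vl (lP p)).prod =
      Multiplicative.ofAdd (if i = j then (d : ℤ) else 0)) (j : J) :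
    ∃ L : List (Bool × Pp), L.Nodup ∧
      (∀ y, y ∈ L ↔ cond y.1 (lP y.2).1 (fl (lP y.2).1) = some (j, true)) ∧
      FreeGroup.mk (L.map fun y => (ty y.2, y.1)) = FreeGroup.of j ^ d := by
  let blk : Pp → List (Bool × Pp) := fun p =>
    (lP p).1.elim [] fun y => if y.1 = j then [(y.2, p)] else []
  have h1 : ∀ y p, y ∈ blk p ↔ y.2 = p ∧ (lP p).1 = some (j, y.1) := fun y p => by
    rcases h : (lP p).1 with _ | ⟨k, b⟩ <;> simp [blk, h, Prod.ext_iff]
    tauto
  refine ⟨(univ.toList.flatMap F).flatMap blk, nodup_blocks (fun p => ?_) (fun y p p' h h' =>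
    ((h1 _ _).mp h).1.symm.trans ((h1 _ _).mp h').1) (nodup_blocks hn (fun p i i' h h' =>
      ((hm _ _).mp h).symm.trans ((hm _ _).mp h')) (nodup_toList _)), fun ⟨b, p⟩ => ?_, ?_⟩
  · simp only [blk]
    cases (lP p).1 <;> simp only [Option.elim]
    · simp
    · split_ifs <;> simp
  · simp only [List.mem_flatMap, h1, hm, mem_toList, mem_univ, true_and, exists_eq',
      exists_eq_left']
    rcases (lP p).1 with _ | ⟨k, c⟩ <;> cases b <;> simp [fl]
  · have h2 : ∀ l : List (J × Bool), FreeGroup.mk l = (l.map fun y => FreeGroup.mk [y]).prod :=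
      fun l => by
        induction l with
        | nil => rfl
        | cons y l ih => rw [List.map_cons, List.prod_cons, ← ih]; rfl
    have h3 : ∀ i, ((F i).map fun p => ((blk p).map ((fun y => FreeGroup.mk [y]) ∘
        fun y => (ty y.2, y.1))).prod).prod = FreeGroup.of i ^ (if i = j then (d : ℤ) else 0) := by
      intro i
      have := congrArg (zpowersHom _ (FreeGroup.of i)) (hex i j)
      rw [map_list_prod, map_list_prod, List.map_map, List.map_map, zpowersHom_apply,
        toAdd_ofAdd] at this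
      rw [← this]
      refine congrArg _ (List.map_congr_left fun p hp => ?_)
      rcases h : (lP p).1 with _ | ⟨k, b⟩
      · simp [blk, h, vl, lv, ex]
      · by_cases e : k = j <;> cases b <;>
          simp [blk, h, vl, lv, ex, e, (hm _ _).mp hp, FreeGroup.of, FreeGroup.inv_mk,
            FreeGroup.invRev]
    rw [h2, List.map_map, prod_blocks, prod_blocks, List.prod_map_eq_pow_single j
      _ fun i hi _ => by simpa [hi] using h3 i,
      List.count_eq_one_of_mem (nodup_toList _) (by simp), pow_one]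
    simpa using h3 j

theorem core_cb [Nonempty S] {lS : S → Option (J × Bool) × G} {lP : Pp → Option (J × Bool) × G}
    {ty : Pp → J} {F : J → List Pp} (hn : ∀ i, (F i).Nodup) (hm : ∀ p i, p ∈ F i ↔ ty p = i)
    {d : ℕ} (hd : d ≠ 0) {w : J → Coprod G (FreeGroup J)}
    (hw : ∀ i, ((F i).map fun p => vl (lP p)).prod = w i)
    (hex : ∀ i j, ex j (w i) = Multiplicative.ofAdd (if i = j then (d : ℤ) else 0))
    {Z : List (Option (Φ × Bool × J) ⊕ S)} (hZ : Z.Nodup) (hZ' : ∀ t, t ∈ Z) {g : G}
    (h1 : (Z.map (Sum.elim (fun a => a.elim (Coprod.inl g) fun a => cond a.2.1 (w a.2.2) (w a.2.2)⁻¹)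
      fun s => vl (lS s))).prod = 1)
    (h2 : ((Z.filterMap Sum.getRight?).map fun s => vl (lS s)).prod = 1) : g = 1 := by
  choose L L1 L2 L3 using exists_L hn hm fun i j => (hw i).symm ▸ hex i j
  have hty : ∀ p i, p ∈ F i → ty ((F i).formPerm p) = i := fun p i h =>
    (hm _ _).mp (List.formPerm_apply_mem_of_mem h)
  have hty' : ∀ p i, p ∈ F i → ty ((F i).formPerm⁻¹ p) = i := fun p i h =>
    (hm _ _).mp (List.mem_of_formPerm_apply_mem (by simpa using h))
  let ν : Equiv.Perm Pp :=
    { toFun := fun p => (F (ty p)).formPerm p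
      invFun := fun p => (F (ty p)).formPerm⁻¹ p
      left_inv := fun p => by simp [hty _ _ ((hm _ _).mpr rfl)]
      right_inv := fun p => by simp only [hty' _ _ ((hm _ _).mpr rfl)]; simp }
  let fc : Option (Φ × Bool × J) → List ((S ⊕ Unit) ⊕ Φ × Bool × Pp) := fun a =>
    a.elim [.inl (.inr ())] fun a =>
      (cond a.2.1 (F a.2.2) (F a.2.2).reverse).map fun p => .inr (a.1, a.2.1, p)
  let st : S → (S ⊕ Unit) ⊕ Φ × Bool × Pp := fun s => .inl (.inl s)
  have hst : Function.Injective st := Sum.inl_injective.comp Sum.inl_injective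
  let own : (S ⊕ Unit) ⊕ Φ × Bool × Pp → Option (Φ × Bool × J) ⊕ S :=
    Sum.elim (Sum.elim .inr fun _ => .inl none) fun x => .inl (some (x.1, x.2.1, ty x.2.2))
  have c1 : ∀ i t, i ∈ Sum.elim fc (fun s => [st s]) t ↔ own i = t := by
    rintro ((i | i) | ⟨a, b, p⟩) ((_ | ⟨a', b', j⟩) | t) <;> simp [fc, st, own, eq_comm]
    cases b' <;> simp [hm] <;> aesop
  have c2 : ∀ a, (fc a).Nodup := by
    rintro (_ | ⟨a, b, j⟩)
    · simp [fc]
    · refine List.Nodup.map (fun p q h => by simpa using h) ?_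
      cases b <;> simp [hn]
  have c3 : (Z.flatMap (Sum.elim fc fun s => [st s])).Nodup :=
    nodup_blocks (by rintro (a | s); exacts [c2 a, by simp])
      (fun i t t' h h' => ((c1 _ _).mp h).symm.trans ((c1 _ _).mp h')) hZ
  have c4 : ∀ i, i ∈ Z.flatMap (Sum.elim fc fun s => [st s]) := fun i =>
    List.mem_flatMap.mpr ⟨own i, hZ' _, (c1 _ _).mpr rfl⟩
  have c5 : (Z.filterMap Sum.getRight?).Nodup := hZ.filterMap (by simp)
  have c6 : (Z.filterMap Sum.getLeft?).Nodup := hZ.filterMap (by simp)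
  obtain ⟨l, l1, l2⟩ := formPerm_insert (.inl (.inr ())) fc st Z [] c3
  obtain ⟨PS, hPS⟩ := exists_pot _ c5 h2
  obtain ⟨PI, hPI⟩ := exists_pot (fun i => Coprod.inl (j3 1 g
    (fun y : Bool × Pp => cond y.1 1 (lP y.2).2⁻¹) i) * Coprod.inr (lv (j3 (fun s => (lS s).1) none
      (fun y : Bool × Pp => cond y.1 (lP y.2).1 (fl (lP y.2).1)) i)) * Coprod.inl
        (j3 (fun s => (lS s).2) 1 (fun y : Bool × Pp => cond y.1 (lP y.2).2 1) i)) c3 (by
    rw [prod_blocks, ← h1]
    refine congrArg _ (List.map_congr_left ?_)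
    rintro ((_ | ⟨a, _ | _, j⟩) | s) -
    · simp [fc, j3, lv]
    · simp [fc, j3, ← hw, List.prod_inv_reverse, Function.comp_def, vl, lv_fl]
    · simp [fc, j3, ← hw, Function.comp_def, vl]
    · simp [st, j3, vl])
  refine core_an (Φ := Φ) (tb := fun y : Bool × Pp => (ty y.2, y.1)) L1 L2 hd L3
    (f := Equiv.prodCongr Equiv.boolNot 1) (s := Equiv.prodCongrRight fun b => cond b ν ν⁻¹)
    (by ext <;> simp) (by simp [Prod.ext_iff]) (by rintro ⟨_ | _, p⟩ <;> simp [fl_fl])
    (fun _ => rfl) (by rintro ⟨_ | _, p⟩ <;> simp) (by ext ⟨_ | _, p⟩ <;> simp)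
    (by simp [Prod.ext_iff]) ?_ (NS := (Z.filterMap Sum.getRight?).formPerm) (PS := PS)
    (fun i => by simpa [vl] using hPS i (by simpa using hZ' _)) (fun i => hPI i (c4 i))
    (fun v hv => (exists_pot v c3 ?_).imp fun D h i => h i (c4 i)) (l := l) ?_ ?_
  · rintro ⟨_ | _, p⟩
    exacts [congrArg (·, false) (hty' _ _ ((hm _ _).mpr rfl)),
      congrArg (·, true) (hty _ _ ((hm _ _).mpr rfl))]
  · rw [← List.prod_toFinset _ c3, ← hv, eq_univ_of_forall fun i => List.mem_toFinset.mpr (c4 i)]
  · rw [l1, ← List.toFinset_card_of_nodup c6,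
      eq_univ_of_forall fun a => List.mem_toFinset.mpr (by simpa using hZ' _)]
    simp; ring
  · refine l2.trans (congrArg (· * _) (Equiv.ext fun x => ?_))
    have c7 : ∀ a, ∀ x ∈ fc a, ((((Z.filterMap Sum.getLeft?).map fc).map List.formPerm).prod *
        ([] ++ (Z.filterMap Sum.getRight?).map st).formPerm) x = (fc a).formPerm x := by
      intro a x hx
      rw [Equiv.Perm.mul_apply, List.formPerm_apply_of_notMem]
      · exact prod_formPerm _ (nodup_blocks c2 (fun i t t' h h' => Sum.inl.inj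
          (((c1 i (.inl t)).mp h).symm.trans ((c1 i (.inl t')).mp h'))) c6) _
          (List.mem_map_of_mem (by simpa using hZ' _)) x hx
      · intro h
        obtain ⟨s, -, rfl⟩ := List.mem_map.mp h
        simpa [own, st] using (c1 _ (.inl a)).mp hx
    rcases x with (s | x) | ⟨a, b, p⟩
    · rw [Equiv.Perm.mul_apply, List.nil_append]
      refine (congrArg _ (formPerm_map hst s _)).trans (List.prod_induction
        (fun σ : Equiv.Perm _ => σ (st _) = st _) (fun a b ha hb => ?_) rfl fun σ hσ => ?_)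
      · rw [Equiv.Perm.mul_apply, hb, ha]
      · obtain ⟨_, h, rfl⟩ := List.mem_map.mp hσ
        obtain ⟨a, -, rfl⟩ := List.mem_map.mp h
        exact List.formPerm_apply_of_notMem fun h => by simpa [own, st] using (c1 _ (.inl a)).mp h
    · exact c7 none _ (by simp [fc])
    · refine (c7 (some (a, b, ty p)) _ ((c1 _ (.inl (some (a, b, ty p)))).mpr rfl)).trans
        ((formPerm_map (f := fun p => Sum.inr (a, b, p)) (fun p q h => by simpa using h) p _).trans ?_)
      cases b
      · simp only [cond_false, List.formPerm_reverse]; rfl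
      · rfl

end Vale.Agent.P174
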