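import Mathlib

/-!
# P174: planar pairings of trivial words, and cyclic lists
-/

namespace Vale.Agent.P174

open Finset Equiv Equiv.Perm Monoid

variable {G : Type*} [Group G] {J : Type}

theorem fox [DecidableEq J] (γ : Coprod G (FreeGroup J)) (j : J) :
    ∃ χ : Coprod G (FreeGroup J) → ℤ, (∀ δ g, χ (δ * Coprod.inl g) = χ δ) ∧
      ∀ δ k, (k = j ∧ δ = γ → χ (δ * Coprod.inr (FreeGroup.of k)) = χ δ + 1) ∧
        (¬(k = j ∧ δ = γ) → χ (δ * Coprod.inr (FreeGroup.of k)) = χ δ) := by
  classical
  let x : J → Coprod G (FreeGroup J) := fun k => Coprod.inr (FreeGroup.of k)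
  let c : J → Coprod G (FreeGroup J) → ℤ := fun k δ => if k = j ∧ δ = (γ * x j)⁻¹ then 1 else 0
  let A : G →* Perm (Coprod G (FreeGroup J) × ℤ) :=
    { toFun := fun g => Equiv.prodCongr (Equiv.mulLeft (Coprod.inl g)) (Equiv.refl ℤ)
      map_one' := by ext <;> simp
      map_mul' := fun a b => by ext <;> simp [mul_assoc] }
  let B : J → Perm (Coprod G (FreeGroup J) × ℤ) := fun k =>
    { toFun := fun p => (x k * p.1, p.2 + c k p.1)
      invFun := fun p => ((x k)⁻¹ * p.1, p.2 - c k ((x k)⁻¹ * p.1))
      left_inv := fun p => by simp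
      right_inv := fun p => by simp }
  let Φ := Coprod.lift A (FreeGroup.lift B)
  have h1 : ∀ δ p, (Φ δ p).1 = δ * p.1 := fun δ => by
    induction δ using Coprod.induction_on with
    | inl g => exact fun p => rfl
    | mul a b ha hb => intro p; rw [map_mul, Perm.mul_apply, ha, hb, mul_assoc]
    | inr f =>
      induction f using FreeGroup.induction_on with
      | C1 => simp
      | of k => intro p; simp [Φ, B, x]
      | inv_of k _ => intro p; simp [Φ, B, x]
      | mul a b ha hb => intro p; rw [map_mul, map_mul, Perm.mul_apply, ha, hb, mul_assoc]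
  have h2 : ∀ δ k, -(Φ (δ * x k)⁻¹ (1, 0)).2 = -(Φ δ⁻¹ (1, 0)).2 + c k (δ * x k)⁻¹ := fun δ k => by
    have : Φ δ⁻¹ (1, 0) = B k (Φ (δ * x k)⁻¹ (1, 0)) := by
      rw [← Perm.mul_apply, show B k = Φ (x k) by simp [Φ, x], ← map_mul]; simp
    rw [this]
    simp only [B, Equiv.coe_fn_mk, h1, mul_one]
    ring
  refine ⟨fun δ => -(Φ δ⁻¹ (1, 0)).2, fun δ g => ?_, fun δ k => ⟨?_, fun h => ?_⟩⟩
  · simp only
    rw [mul_inv_rev, map_mul, ← map_inv]; rfl
  · rintro ⟨rfl, rfl⟩
    exact (h2 _ _).trans (by simp [c])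
  · refine (h2 _ _).trans ?_
    simp only [c, inv_inj]
    rw [if_neg, add_zero]
    rintro ⟨rfl, e⟩
    exact h ⟨rfl, mul_right_cancel e⟩

/-- The value of a label. -/
def lv (o : Option (J × Bool)) : FreeGroup J := o.elim 1 fun y => FreeGroup.mk [y]

/-- The inverse label. -/
def fl (o : Option (J × Bool)) : Option (J × Bool) := o.map fun y => (y.1, !y.2)

theorem lv_fl (o : Option (J × Bool)) : lv (fl o) = (lv o)⁻¹ := by
  cases o <;> simp [lv, fl, FreeGroup.inv_mk, FreeGroup.invRev]

theorem fl_fl (o : Option (J × Bool)) : fl (fl o) = o := by cases o <;> simp [fl]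

theorem fl_eq_iff {o : Option (J × Bool)} : fl o = o ↔ o = none := by
  cases o <;> simp [fl, Prod.ext_iff]

variable {I : Type} [Fintype I] [DecidableEq I]

omit [DecidableEq I] in
theorem partner {lab : I → Option (J × Bool)} {α β : I → G} {N : Perm I}
    {P : I → Coprod G (FreeGroup J)}
    (hP : ∀ i, P (N i) = P i * (Coprod.inl (α i) * Coprod.inr (lv (lab i)) * Coprod.inl (β i)))
    {i : I} (hi : lab i ≠ none) : ∃ i', SameCycle N i i' ∧ lab i' = fl (lab i) ∧
      P i * Coprod.inl (α i) * Coprod.inr (lv (lab i)) = P i' * Coprod.inl (α i') := by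
  classical
  obtain ⟨⟨j, b⟩, hy⟩ := Option.ne_none_iff_exists'.mp hi
  obtain ⟨χ, h1, h2⟩ := fox (if b then P i * Coprod.inl (α i) else
    P i * Coprod.inl (α i) * Coprod.inr (lv (lab i))) j
  have h3 : ∑ x with SameCycle N i x, (χ (P (N x)) - χ (P x)) = 0 := by
    rw [sum_sub_distrib, sub_eq_zero]
    exact sum_equiv N (by simp) fun _ _ => rfl
  have h4 : ∀ x, χ (P (N x)) - χ (P x) = χ (P x * Coprod.inl (α x) * Coprod.inr (lv (lab x))) -
      χ (P x * Coprod.inl (α x)) := fun x => by rw [hP, ← mul_assoc, h1, h1, mul_assoc]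
  have h5 : ∀ (k : J) (δ : Coprod G (FreeGroup J)), δ * Coprod.inr (lv (some (k, false))) *
      Coprod.inr (FreeGroup.of k) = δ := fun k δ => by
    rw [mul_assoc, ← map_mul, show some (k, false) = fl (some (k, true)) from rfl, lv_fl,
      show FreeGroup.of k = lv (some (k, true)) from rfl, inv_mul_cancel, map_one, mul_one]
  by_contra hne
  push Not at hne
  refine (sum_pos' (f := fun x => (if b then 1 else -1) * (χ (P (N x)) - χ (P x)))
    (s := univ.filter (SameCycle N i)) (fun x hx => ?_) ⟨i, by simp [SameCycle.rfl], ?_⟩).ne' ?_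
  · rw [h4]
    have hx' := hne x (mem_filter.mp hx).2
    rcases hl : lab x with _ | ⟨k, _ | _⟩
    · simp [lv]
    · have h6 := h2 (P x * Coprod.inl (α x) * Coprod.inr (lv (some (k, false)))) k
      rw [h5] at h6
      by_cases h : k = j ∧ P x * Coprod.inl (α x) * Coprod.inr (lv (some (k, false))) =
        if b then P i * Coprod.inl (α i) else P i * Coprod.inl (α i) * Coprod.inr (lv (lab i))
      · cases b
        · simp [h6.1 h]
        · obtain ⟨rfl, h⟩ := h
          refine absurd ?_ (hx' (by rw [hl, hy]; rfl))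
          rw [← if_pos (c := true = true) (t := P i * _) rfl, ← h, hy]
          exact h5 _ _
      · simp [h6.2 h]
    · have h6 := h2 (P x * Coprod.inl (α x)) k
      by_cases h : k = j ∧ P x * Coprod.inl (α x) =
        if b then P i * Coprod.inl (α i) else P i * Coprod.inl (α i) * Coprod.inr (lv (lab i))
      · cases b
        · exact absurd h.2.symm (hx' (by rw [hl, hy, h.1]; rfl))
        · exact mul_nonneg zero_le_one (sub_nonneg.mpr ((h6.1 h).ge.trans' (by simp)))
      · exact (mul_eq_zero_of_right _ (sub_eq_zero.mpr (h6.2 h))).ge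
  · rw [h4, hy]
    cases b
    · have h6 := (h2 _ j).1 ⟨rfl, rfl⟩
      rw [hy, if_neg Bool.false_ne_true, h5] at h6
      simp [h6]
    · have h6 := (h2 _ j).1 ⟨rfl, rfl⟩
      rw [if_pos rfl] at h6
      exact mul_pos one_pos (sub_pos.mpr (h6.ge.trans_lt' (by simp)))
  · rw [← mul_sum, h3, mul_zero]

/-- The number of cycles. -/
noncomputable def nc (σ : Perm I) : ℕ := Nat.card (Quotient (SameCycle.setoid σ))

theorem nc_swap {N : Perm I} {i i' : I} (h : SameCycle N i i') (hne : i ≠ i') :
    nc N + 1 ≤ nc (N * swap i i') := by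
  classical
  have h1 : ∀ x, SameCycle N x ((N * swap i i') x) := fun x => by
    rw [Perm.mul_apply, sameCycle_apply_right, swap_apply_def]
    split_ifs with h1 h2
    exacts [h1 ▸ h, h2 ▸ h.symm, SameCycle.rfl]
  have h2 : ∀ x y, SameCycle (N * swap i i') x y → SameCycle N x y := fun x y hxy => by
    obtain ⟨n, rfl⟩ := hxy.exists_nat_pow_eq
    induction n with
    | zero => exact SameCycle.rfl
    | succ n ih =>
      rw [pow_succ', Perm.mul_apply]
      exact (ih ⟨n, rfl⟩).trans (h1 _)
  have hex := h.exists_nat_pow_eq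
  have hk := Nat.find_spec hex
  have hk0 : Nat.find hex ≠ 0 := fun e => hne (by rwa [e] at hk)
  have hback : ∀ t, 0 < t → t ≤ Nat.find hex → (N ^ t) i ≠ i := fun t t0 t1 e =>
    Nat.find_min hex (m := Nat.find hex - t) (by omega) ((congrArg _ e).symm.trans (by
      rw [← Perm.mul_apply, ← pow_add, Nat.sub_add_cancel t1, hk]))
  have h3 : ∀ n, ∃ t, 0 < t ∧ t ≤ Nat.find hex ∧ (N ^ t) i = ((N * swap i i') ^ n) i' := fun n => by
    induction n with
    | zero => exact ⟨_, Nat.pos_of_ne_zero hk0, le_rfl, hk⟩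
    | succ n ih =>
      obtain ⟨t, t0, t1, e⟩ := ih
      rw [pow_succ', Perm.mul_apply, ← e, Perm.mul_apply]
      rcases t1.eq_or_lt with rfl | t1
      · exact ⟨1, one_pos, t0, by rw [hk, swap_apply_right, pow_one]⟩
      · refine ⟨t + 1, by omega, t1, ?_⟩
        rw [swap_apply_of_ne_of_ne (hback t t0 t1.le) (Nat.find_min hex t1), pow_succ',
          Perm.mul_apply]
  simp only [nc, Nat.card_eq_fintype_card]
  refine Fintype.card_lt_of_surjective_not_injective
    (Quotient.map' (s₁ := SameCycle.setoid _) (s₂ := SameCycle.setoid _) id h2) (fun q => ?_)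
    fun hinj => ?_
  · obtain ⟨x, rfl⟩ := q.exists_rep
    exact ⟨Quotient.mk _ x, rfl⟩
  · obtain ⟨n, e⟩ := SameCycle.exists_nat_pow_eq (Quotient.exact (@hinj (Quotient.mk _ i')
      (Quotient.mk _ i) (Quotient.sound h.symm)))
    obtain ⟨t, t0, t1, e'⟩ := h3 n
    exact hback t t0 t1 (e'.trans e)

omit [DecidableEq I] in
theorem period_pos (σ : Perm I) (x : I) : 0 < Function.minimalPeriod σ x :=
  Function.minimalPeriod_pos_of_mem_periodicPts (σ.injective.mem_periodicPts x)

omit [DecidableEq I] in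
theorem nc_le (σ : Perm I) : (nc σ : ℝ) ≤ ∑ x, (Function.minimalPeriod σ x : ℝ)⁻¹ := by
  classical
  rw [← sum_fiberwise univ (Quotient.mk (SameCycle.setoid σ)), nc, Nat.card_eq_fintype_card,
    ← mul_one (Fintype.card _ : ℝ), ← nsmul_eq_mul, ← card_univ]
  refine card_nsmul_le_sum _ _ _ fun q _ => ?_
  obtain ⟨y, rfl⟩ := q.exists_rep
  set s := univ.filter fun x => Quotient.mk (SameCycle.setoid σ) x = Quotient.mk _ y with hs
  have h0 : (0 : ℝ) < s.card := by exact_mod_cast card_pos.mpr ⟨y, by simp [hs]⟩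
  refine le_trans ?_ (card_nsmul_le_sum s _ (s.card : ℝ)⁻¹ fun x hx => ?_)
  · rw [nsmul_eq_mul, mul_inv_cancel₀ h0.ne']
  · refine inv_anti₀ (by exact_mod_cast period_pos σ x) ?_
    norm_cast
    rw [← card_range (Function.minimalPeriod σ x)]
    refine card_le_card_of_injOn (fun t => σ^[t] x) (fun t _ => ?_)
      (by simpa using Function.iterate_injOn_Iio_minimalPeriod)
    simp only [hs, coe_filter, mem_univ, true_and, Set.mem_ofPred_eq, mem_filter] at hx ⊢
    rw [← hx]
    exact Quotient.sound (SameCycle.symm ⟨t, by simp [Perm.iterate_eq_pow]⟩)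

theorem tree (α : I → G) (P : I → Coprod G (FreeGroup J)) (n : ℕ) (lab : I → Option (J × Bool))
    (β : I → G) (N : Perm I) (hn : #{i | lab i ≠ none} = n)
    (hP : ∀ i, P (N i) = P i * (Coprod.inl (α i) * Coprod.inr (lv (lab i)) * Coprod.inl (β i))) :
    ∃ a : Perm I, a * a = 1 ∧ (∀ i, lab (a i) = fl (lab i)) ∧ (∀ i, lab i = none → a i = i) ∧
      (∀ i, P (N (a i)) = P i * Coprod.inl (α i * β (a i))) ∧ 2 * nc N + n ≤ 2 * nc (N * a) := by
  classical
  induction n using Nat.strong_induction_on generalizing lab β N with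
  | _ n ih =>
  by_cases h0 : ∀ i, lab i = none
  · refine ⟨1, mul_one _, fun i => by simp [h0, fl], fun _ _ => rfl, fun i => ?_, ?_⟩
    · simp [hP, h0, lv]
    · simp [← hn, h0]
  push Not at h0
  obtain ⟨i, hi⟩ := h0
  obtain ⟨i', h1, h2, h3⟩ := partner hP hi
  have hne : i ≠ i' := fun e => hi (fl_eq_iff.mp (by rw [← h2, e]))
  have hi' : lab i' ≠ none := fun e => hi (by rw [← fl_fl (lab i), ← h2, e]; rfl)
  let lab' : I → Option (J × Bool) := fun x => if x = i ∨ x = i' then none else lab x
  have hc : #{x | lab' x ≠ none} + 2 = n := by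
    rw [← hn, ← card_pair hne, ← card_union_of_disjoint (by simp [lab'])]
    congr 1
    ext x
    by_cases h : x = i ∨ x = i'
    · rcases h with rfl | rfl <;> simp [hi, hi']
    · have := not_or.mp h
      simp [lab', this.1, this.2]
  obtain ⟨a, a1, a2, a3, a4, a5⟩ := ih _ (by omega) lab' (fun x => β (swap i i' x))
    (N * swap i i') rfl fun x => by
      rw [Perm.mul_apply, hP]
      by_cases e : x = i
      · subst e
        simp only [swap_apply_left, ← mul_assoc, ← h3, h2, lv_fl, lab']
        simp [lv]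
      · by_cases e' : x = i'
        · subst e'
          simp only [swap_apply_right, ← mul_assoc, h3, lab']
          simp [lv]
        · simp [swap_apply_of_ne_of_ne e e', lab', e, e']
  have b1 : a i = i := a3 i (by simp [lab'])
  have b2 : a i' = i' := a3 i' (by simp [lab'])
  have b3 : ∀ x, x ≠ i → x ≠ i' → swap i i' (a x) = a x := fun x e e' =>
    swap_apply_of_ne_of_ne (fun h => e (a.injective (h.trans b1.symm)))
      fun h => e' (a.injective (h.trans b2.symm))
  refine ⟨swap i i' * a, ?_, fun x => ?_, fun x hx => ?_, a4, ?_⟩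
  · rw [mul_assoc, ← mul_assoc a, mul_swap_eq_swap_mul, b1, b2, mul_assoc, a1, mul_one,
      swap_mul_self]
  · rw [Perm.mul_apply]
    by_cases e : x = i
    · rw [e, b1, swap_apply_left, h2]
    · by_cases e' : x = i'
      · rw [e', b2, swap_apply_right, h2, fl_fl]
      · have := a2 x
        simp only [lab', e, e', or_self, if_false] at this
        rwa [if_neg (not_or.mpr ⟨fun h => e (a.injective (h.trans b1.symm)),
          fun h => e' (a.injective (h.trans b2.symm))⟩), ← b3 x e e'] at this
  · have e : x ≠ i := fun e => hi (e ▸ hx)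
    have e' : x ≠ i' := fun e => hi' (e ▸ hx)
    rw [Perm.mul_apply, b3 x e e', a3 x (by simp [lab', hx])]
  · have := nc_swap h1 hne
    rw [← mul_assoc]
    omega

omit [Fintype I] in
theorem exists_pot {Γ : Type*} [Monoid Γ] (v : I → Γ) {l : List I} (hl : l.Nodup)
    (h : (l.map v).prod = 1) : ∃ P : I → Γ, ∀ i ∈ l, P (l.formPerm i) = P i * v i := by
  refine ⟨fun x => ((l.map v).take (l.idxOf x)).prod, fun x hx => ?_⟩
  obtain ⟨i, hi, rfl⟩ := List.getElem_of_mem hx
  have := List.prod_take_succ (l.map v) i (by simpa using hi)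
  simp only [List.formPerm_apply_getElem l hl, hl.idxOf_getElem, List.getElem_map] at this ⊢
  rw [← this]
  rcases (Nat.succ_le_of_lt hi).eq_or_lt with e | e
  · rw [show i + 1 = l.length from e, Nat.mod_self,
      List.take_of_length_le (l := l.map v) (i := l.length) (by simp), h]
    rfl
  · rw [Nat.mod_eq_of_lt e]

omit [Fintype I] in
theorem formPerm_append (x0 : I) : ∀ l l' : List I,
    ∃ a b, (l ++ l').formPerm = l.formPerm * swap a b * l'.formPerm
  | [], l' => ⟨x0, x0, by simp [← Perm.one_def]⟩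
  | [x], [] => ⟨x0, x0, by simp [← Perm.one_def]⟩
  | [x], y :: l => ⟨x, y, by simp⟩
  | x :: y :: l, l' => by
    obtain ⟨a, b, h⟩ := formPerm_append x0 (y :: l) l'
    exact ⟨a, b, by
      rw [List.cons_append, List.cons_append, List.formPerm_cons_cons, ← List.cons_append, h,
        List.formPerm_cons_cons, mul_assoc, mul_assoc, mul_assoc]⟩

omit [Fintype I] in
theorem formPerm_map {I' : Type} [DecidableEq I'] {f : I → I'} (hf : Function.Injective f) (z : I) :
    ∀ l : List I, (l.map f).formPerm (f z) = f (l.formPerm z)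
  | [] => rfl
  | [_] => rfl
  | x :: y :: l => by
    have := formPerm_map hf z (y :: l)
    simp only [List.map_cons, List.formPerm_cons_cons, Perm.mul_apply] at this ⊢
    rw [this, hf.swap_apply]

omit [Fintype I] in
theorem prod_formPerm : ∀ (Ls : List (List I)), Ls.flatten.Nodup → ∀ f ∈ Ls, ∀ x ∈ f,
    (Ls.map List.formPerm).prod x = f.formPerm x
  | [], _, f, hf, _, _ => by simp at hf
  | f' :: Ls, h, f, hf, x, hx => by
    rw [List.flatten_cons, List.nodup_append] at h
    rw [List.map_cons, List.prod_cons, Perm.mul_apply]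
    by_cases hf' : f ∈ Ls
    · rw [prod_formPerm Ls h.2.1 f hf' x hx]
      exact List.formPerm_apply_of_notMem fun e => h.2.2 _ e _
        (List.mem_flatten.mpr ⟨f, hf', List.formPerm_apply_mem_of_mem hx⟩) rfl
    · obtain rfl := (List.mem_cons.mp hf).resolve_right hf'
      congr 1
      refine List.prod_induction (fun σ : Perm I => σ x = x) (fun a b ha hb => ?_) rfl fun σ hσ => ?_
      · rw [Perm.mul_apply, hb, ha]
      · obtain ⟨g, hg, rfl⟩ := List.mem_map.mp hσ
        exact List.formPerm_apply_of_notMem fun e => h.2.2 _ hx _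
          (List.mem_flatten.mpr ⟨g, hg, e⟩) rfl

omit [Fintype I] in
theorem formPerm_insert {A B : Type} (x0 : I) (fc : A → List I) (st : B → I) :
    ∀ (Z : List (A ⊕ B)) (s : List I), (s ++ Z.flatMap (Sum.elim fc fun b => [st b])).Nodup →
      ∃ l : List (I × I), l.length = (Z.filterMap Sum.getLeft?).length ∧
        (s ++ Z.flatMap (Sum.elim fc fun b => [st b])).formPerm =
          (((Z.filterMap Sum.getLeft?).map fc).map List.formPerm).prod *
            (s ++ (Z.filterMap Sum.getRight?).map st).formPerm *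
              (l.map fun p => swap p.1 p.2).prod
  | [], s, _ => ⟨[], rfl, by simp⟩
  | .inr b :: Z, s, h => by
    simpa [List.filterMap_cons] using formPerm_insert x0 fc st Z (s ++ [st b]) (by simpa using h)
  | .inl a :: Z, s, h => by
    rw [List.flatMap_cons, Sum.elim_inl] at h ⊢
    have h1 : (s ++ Z.flatMap (Sum.elim fc fun b => [st b])).Nodup :=
      h.sublist ((List.sublist_append_right _ _).append_left _)
    obtain ⟨l, e1, e2⟩ := formPerm_insert x0 fc st Z s h1
    obtain ⟨x, y, e3⟩ := formPerm_append x0 (fc a) (Z.flatMap (Sum.elim fc fun b => [st b]) ++ s)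
    rw [← List.formPerm_eq_of_isRotated h1 List.isRotated_append, e2, ← List.append_assoc,
      ← List.formPerm_eq_of_isRotated h List.isRotated_append, mul_assoc, ← mul_assoc (swap x y),
      swap_mul_eq_mul_swap] at e3
    exact ⟨(_, _) :: l, by simp [e1],
      by simpa [mul_assoc, List.filterMap_cons] using e3⟩

end Vale.Agent.P174
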