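import Vale.Agent.P174.Proj
import Vale.Agent.P174.Tree

/-!
# P174: the main inequality
-/

namespace Vale.Agent.P174

open Finset Matrix Monoid Filter Topology

variable {G : Type*} [Group G] {J : Type}

theorem side {I : Type} [Fintype I] [DecidableEq I] [Nonempty I] {lab : I → Option (J × Bool)}
    {α β : I → G} {N : Equiv.Perm I} {P : I → Coprod G (FreeGroup J)}
    (hP : ∀ i, P (N i) = P i * (Coprod.inl (α i) * Coprod.inr (lv (lab i)) * Coprod.inl (β i))) :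
    ∃ (a : Equiv.Perm I) (q : I → G), a * a = 1 ∧ (∀ i, lab (a i) = fl (lab i)) ∧
      (∀ i, q (N (a i)) = q i * (α i * β (a i))) ∧ (Fintype.card I : ℝ) / 2 + 1 -
        #{i | a i = i} / 2 ≤ ∑ i, (Function.minimalPeriod (N * a) i : ℝ)⁻¹ := by
  classical
  obtain ⟨a, a1, a2, a3, a4, a5⟩ := tree α P _ lab β N rfl hP
  refine ⟨a, fun i => Coprod.fst (P i), a1, a2, fun i => by simp [a4], le_trans ?_ (nc_le _)⟩
  have : Nonempty (Quotient (Equiv.Perm.SameCycle.setoid N)) := ⟨Quotient.mk _ (Classical.arbitrary I)⟩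
  have h1 : 1 ≤ nc N := Nat.card_pos
  have h2 := card_filter_add_card_filter_not (s := univ) fun i => lab i = none
  have h3 : #{i | lab i = none} ≤ #{i | a i = i} :=
    card_le_card fun i hi => by simpa using a3 i (by simpa using hi)
  have h4 : Fintype.card I + 2 ≤ 2 * nc (N * a) + #{i | a i = i} := by
    rw [card_univ] at h2
    simp only [ne_eq] at a5
    omega
  have h5 : (Fintype.card I + 2 : ℝ) ≤ 2 * nc (N * a) + #{i | a i = i} := by exact_mod_cast h4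
  linarith

theorem lim_sum {I : Type} [Fintype I] (σ : Equiv.Perm I) {η : ℝ} (h0 : 0 < η)
    (h1 : Fintype.card I * η < 2 * Real.pi) :
    Tendsto (fun ρ => ∑ i, FF (Function.minimalPeriod σ i) (Circle.exp η) ρ) (𝓝[<] 1)
      (𝓝 (Fintype.card I * η - Real.pi * ∑ i, (Function.minimalPeriod σ i : ℝ)⁻¹)) ∧
    Tendsto (fun ρ => ∑ i, FF (Function.minimalPeriod σ i) (Circle.exp η)⁻¹ ρ) (𝓝[<] 1)
      (𝓝 (Real.pi * ∑ i, (Function.minimalPeriod σ i : ℝ)⁻¹ - Fintype.card I * η)) := by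
  have p0 : ∀ i, (0 : ℝ) < Function.minimalPeriod σ i := fun i => by exact_mod_cast period_pos σ i
  have p1 : ∀ i, Function.minimalPeriod σ i * η < 2 * Real.pi := fun i =>
    (mul_le_mul_of_nonneg_right (by exact_mod_cast Function.minimalPeriod_le_card) h0.le).trans_lt h1
  rw [mul_sum, ← card_univ, ← nsmul_eq_mul, ← sum_const, ← sum_sub_distrib,
    ← sum_sub_distrib]
  refine ⟨tendsto_finsetSum _ fun i _ => ?_, tendsto_finsetSum _ fun i _ => ?_⟩
  · have := FF_lim (period_pos σ i).ne' (mul_pos (p0 i) h0) (p1 i) (Circle.exp_natCast_mul _ _).symm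
    rwa [sub_div, mul_div_cancel_left₀ _ (p0 i).ne', div_eq_mul_inv] at this
  · have := FF_lim (period_pos σ i).ne' (w := (Circle.exp η)⁻¹)
      (x := 2 * Real.pi - Function.minimalPeriod σ i * η) (sub_pos.mpr (p1 i))
      (sub_lt_self _ (mul_pos (p0 i) h0)) (by simp)
    refine (congrArg (fun x => Tendsto _ _ (𝓝 x)) ?_).mp this
    field_simp [(p0 i).ne']
    ring

variable {S Φ Y : Type}

/-- Functions on stems, base point and faces. -/
def j3 {T : Type*} (a : S → T) (b : T) (c : Y → T) : (S ⊕ Unit) ⊕ Φ × Y → T :=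
  Sum.elim (Sum.elim a fun _ => b) fun x => c x.2

variable [Fintype S] [DecidableEq S] [Fintype Φ] [DecidableEq Φ] [Fintype Y] [DecidableEq Y]

theorem m_tilde {βS q : S → G} {g : G} {αY βY : Y → G} {z c : Circle} {a N : Equiv.Perm S}
    (hq : ∀ i, q (N (a i)) = q i * (1 * βS (a i))) {f s : Equiv.Perm Y}
    (hf : ∀ y, αY y * βY (f y) = 1) {v : Y → Matrix Φ Φ ℂ} (hs : s * f * (s * f) = 1)
    (hs' : ∀ y, s (f y) ≠ y) (hv : ∀ y, v y * v (s (f y)) = 1) {ρ : ℝ} (r0 : 0 ≤ ρ) (r1 : ρ < 1) :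
    (tr G _).m ρ (Wf (fun i => (j3 1 g αY i, 1))
      (fun i => (j3 βS 1 βY i, j3 (fun _ => z) c (fun _ => z) i))
      (fromBlocks (fromBlocks (mon a 1) 0 0 (mon 1 1)) 0 0 (fm f v))
      (Equiv.sumCongr (Equiv.sumCongr N 1) (Equiv.prodCongr (1 : Equiv.Perm Φ) s))) =
      ∑ i, FF (Function.minimalPeriod (N * a) i) z ρ + FF (orderOf g) c ρ +
        Fintype.card (Φ × Y) * FF 2 z ρ := by
  have h := mm_sum r0 r1 (j3 (Φ := Φ) (Function.minimalPeriod (N * a)) (orderOf g) fun _ : Y => 2)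
    (j3 (fun _ => z) c fun _ => z)
  simp only [Fintype.sum_sum_type, j3, Sum.elim_inl, Sum.elim_inr, sum_const, card_univ,
    Fintype.card_unit, one_smul] at h
  rw [← nsmul_eq_mul, ← h, Tr.m]
  congr 1
  funext k
  rw [Wf_sum, tr_blocks, Wf_sum, tr_blocks]
  congr 2
  · refine (congrArg (fun M => (tr G S).τ (M ^ k)) (Wf_mon _ _ a N 1)).trans
      (tr_mon (q := fun i => (q i, 1)) (fun i => ?_) k)
    simp [j3, hq]
  · refine (congrArg (fun M => (tr G Unit).τ (M ^ k)) (Wf_mon _ _ 1 1 1)).trans ?_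
    refine Eq.trans ?_ ((tr_star g c k).trans (by rw [Fintype.sum_unique]; rfl))
    simp only [j3, Sum.elim_inl, Sum.elim_inr, Prod.mk_mul_mk, Pi.one_apply, mul_one, one_mul]
  · refine (congrArg (fun M => (tr G (Φ × Y)).τ (M ^ k)) (Wf_fm (fun y => (αY y, 1))
      (fun y => (βY y, z)) f s v (c := z) fun y => by simp [hf])).trans ?_
    rw [tr_invol (by rw [fm_mul, hs]; simp [hv, fm_one]) (fm_trace hs' _)]
    rfl

theorem core_an [Fintype J] [DecidableEq J] [Nonempty S] {lS : S → Option (J × Bool)} {βS : S → G}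
    {g : G} {lY : Y → Option (J × Bool)} {αY βY : Y → G} {tb : Y → J × Bool} {L : J → List Y}
    (hn : ∀ j, (L j).Nodup) (hm : ∀ j y, y ∈ L j ↔ lY y = some (j, true)) {d : ℕ} (hd : d ≠ 0)
    (hL : ∀ j, FreeGroup.mk ((L j).map tb) = FreeGroup.of j ^ d) {f s : Equiv.Perm Y}
    (hf : f * f = 1) (hf1 : ∀ y, f y ≠ y) (hf2 : ∀ y, lY (f y) = fl (lY y))
    (hf3 : ∀ y, tb (f y) = ((tb y).1, !(tb y).2)) (hf4 : ∀ y, αY y * βY (f y) = 1)
    (hs : s * f * (s * f) = 1) (hs1 : ∀ y, s (f y) ≠ y) (hs2 : ∀ y, tb (s y) = tb y)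
    {NS : Equiv.Perm S} {PS : S → Coprod G (FreeGroup J)} (hPS : ∀ i, PS (NS i) =
      PS i * (Coprod.inl 1 * Coprod.inr (lv (lS i)) * Coprod.inl (βS i)))
    {N : Equiv.Perm ((S ⊕ Unit) ⊕ Φ × Y)} {PI : (S ⊕ Unit) ⊕ Φ × Y → Coprod G (FreeGroup J)}
    (hPI : ∀ i, PI (N i) = PI i * (Coprod.inl (j3 1 g αY i) * Coprod.inr (lv (j3 lS none lY i)) *
      Coprod.inl (j3 βS 1 βY i)))
    (hN : ∀ v : _ → Circle, ∏ i, v i = 1 → ∃ D : _ → Circle, ∀ i, D (N i) = D i * v i)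
    {l : List (((S ⊕ Unit) ⊕ Φ × Y) × ((S ⊕ Unit) ⊕ Φ × Y))}
    (hl : l.length = 2 * (Fintype.card J * Fintype.card Φ) + 1)
    (hNl : N = (Equiv.sumCongr (Equiv.sumCongr NS 1) (Equiv.prodCongr (1 : Equiv.Perm Φ) s) :
      Equiv.Perm _) * (l.map fun p => Equiv.swap p.1 p.2).prod) : g = 1 := by
  by_contra hg
  set n : ℝ := (Fintype.card ((S ⊕ Unit) ⊕ Φ × Y) : ℝ) with hnd
  have hn1 : n = Fintype.card S + 1 + Fintype.card (Φ × Y) := by
    simp only [hnd, Fintype.card_sum, Fintype.card_unit]; push_cast; rfl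
  have hS : (0 : ℝ) ≤ Fintype.card S := Nat.cast_nonneg _
  have hX : (0 : ℝ) ≤ Fintype.card (Φ × Y) := Nat.cast_nonneg _
  set η : ℝ := (2 * n)⁻¹ with hη
  have η0 : 0 < η := by rw [hη, hn1]; positivity
  have η1 : n * η = 2⁻¹ := by rw [hη]; field_simp [show n ≠ 0 by rw [hn1]; positivity]
  set z := Circle.exp η with hz
  obtain ⟨c, hc⟩ : ∃ c, ∏ i : (S ⊕ Unit) ⊕ Φ × Y, j3 (fun _ => z) c (fun _ => z) i * z = 1 :=
    ⟨((∏ _ : S, z * z) * (z * ∏ _ : Φ × Y, z * z))⁻¹, by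
      simp only [Fintype.prod_sum_type, j3, Sum.elim_inl, Sum.elim_inr, univ_unique, prod_singleton]
      rw [mul_assoc, mul_assoc, mul_left_comm, inv_mul_cancel]⟩
  obtain ⟨D, hD⟩ := hN _ hc
  obtain ⟨a, q, a1, a2, a3, a4⟩ := side hPI
  obtain ⟨b, r, b1, b2, b3, b4⟩ := side (α := fun _ => 1) hPS
  set b' : Equiv.Perm ((S ⊕ Unit) ⊕ Φ × Y) :=
    Equiv.sumCongr (Equiv.sumCongr b 1) (Equiv.prodCongr (1 : Equiv.Perm Φ) f) with hb'
  have b3' : ∀ i, j3 lS none lY (b' i) = fl (j3 lS none lY i) := by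
    rintro ((i | i) | i)
    exacts [b2 i, rfl, hf2 _]
  obtain ⟨u, P, hP, P1, P2, P3⟩ := exists_P (Sum.elim lS fun _ => none) lY tb L hn hm hd hL (b' * a)
    (fun i => (b3' _).trans ((congrArg fl (a2 i)).trans (fl_fl _))) fun i => (D i)⁻¹ * D (a i)
  set v : Y → unitaryGroup Φ ℂ := fun y => cond (tb y).2 (u (tb y).1) (u (tb y).1)⁻¹ with hv
  have hv1 : ∀ y, (v y).1 * (v (f y)).1 = 1 := fun y => by
    rw [← Submonoid.coe_mul]
    cases h : (tb y).2 <;> simp [hv, hf3, h]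
  have hv2 : ∀ y, v (s y) = v y := fun y => by simp only [hv, hs2]
  have hff : ∀ y, f (f y) = y := fun y => by rw [← Equiv.Perm.mul_apply, hf]; rfl
  set J1 := mon a fun i => (((D i)⁻¹ * D (a i) : Circle) : ℂ) with hJ1
  set J2 := mon b' 1 * (emb2 (S ⊕ Unit) (bd v)).1 with hJ2
  have e2 : J2 = fromBlocks (fromBlocks (mon b 1) 0 0 (mon 1 1)) 0 0 (fm f fun y => (v (f y)).1) := by
    show _ * fromBlocks 1 0 0 (fm 1 fun y => (v y).1) = _
    rw [hb', mon_sum, mon_sum]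
    simp only [fromBlocks_multiply, Matrix.mul_zero, Matrix.zero_mul, add_zero, zero_add, mul_one,
      Pi.one_apply, ← Pi.one_def, fm_mon, fm_mul, one_mul]
  have u1 : J1 ∈ unitary _ := mon_mem _ _ fun i => by
    rw [Unitary.mem_iff, Complex.star_def, ← Circle.coe_inv_eq_conj, ← Circle.coe_mul,
      ← Circle.coe_mul]
    simp
  have u2 : J2 ∈ unitary _ := mul_mem (mon_mem _ _ fun _ => one_mem _) (Subtype.prop _)
  have haa : ∀ i, a (a i) = i := fun i => by rw [← Equiv.Perm.mul_apply, a1]; rfl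
  have s1 : J1 * J1 = 1 := by simp [hJ1, mon_mul, a1, haa, mon_one, mul_assoc]
  have s2 : J2 * J2 = 1 := by
    have := fun y => hv1 (f y)
    simp [e2, fromBlocks_multiply, mon_mul, b1, mon_one, fm_mul, hf, this, fm_one]
  have t1 : (trace J1).re = #{i | a i = i} := by
    rw [trace, Complex.re_sum, card_filter]
    push_cast
    refine sum_congr rfl fun i _ => ?_
    simp only [hJ1, mon, diag_apply, of_apply]
    split_ifs with h <;> simp [h]
  have t2 : (trace J2).re = #{i | b i = i} + 1 := by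
    simp [e2, trace, mon, fm, hf1]
  have h12 : J1 * J2 * P = P := by
    rw [← P3, hJ1, hJ2, ← mul_assoc (mon a _), mon_mul, P3]
    simpa using P3
  have h0 : P * (J2 * P) = 0 := by
    ext i k
    rw [mul_apply]
    refine sum_eq_zero fun t _ => ?_
    by_cases h : ∀ j, j3 lS none lY t ≠ some (j, true)
    · refine mul_eq_zero_of_left ?_ _
      rw [← hP.1]
      simp [P2 t i h]
    · refine mul_eq_zero_of_right _ ?_
      push Not at h
      obtain ⟨j, hj⟩ := h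
      rw [hJ2, mul_assoc, mon_mul_apply, bd_zero v (p := fun i => ∀ j, j3 lS none lY i ≠ some (j, true))
        (fun _ _ _ h => h) P2 _ _ fun j' => by simp [b3', hj, fl], mul_zero]
  have uα := mon_mem 1 _ fun i => ee_mem (G := G) (j3 (Φ := Φ) (1 : S → G) g αY i, 1)
  have uβ := mon_mem 1 _ fun i =>
    ee_mem (G := G) (j3 (Φ := Φ) βS 1 βY i, j3 (fun _ => z) c (fun _ => z) i)
  have key : ∀ ρ ∈ Set.Ioo (0 : ℝ) 1, ∑ i, FF (Function.minimalPeriod (N * a) i) z⁻¹ ρ ≤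
      ∑ i, FF (Function.minimalPeriod (NS * b) i) z ρ + Fintype.card (Φ × Y) * FF 2 z ρ +
        Real.pi * (n + 1 - #{i | a i = i} / 2 - #{i | b i = i} / 2) := fun ρ hρ => by
    have k1 := m_swaps (mul_mem (mul_mem uα (cs_mem u1)) uβ) hρ.1.le hρ.2 l
      (Equiv.sumCongr (Equiv.sumCongr NS 1) (Equiv.prodCongr (1 : Equiv.Perm Φ) s))
    have k2 := m_cmp uα (mul_mem uβ (mon_mem (Equiv.sumCongr (Equiv.sumCongr NS 1)
      (Equiv.prodCongr (1 : Equiv.Perm Φ) s)) 1 fun _ => one_mem _)) u1 u2 s1 s2 hP h12 h0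
      hρ.1.le hρ.2
    have k3 := m_tilde (g := g) (c := c) (z := z) b3 hf4 (v := fun y => (v (f y)).1) hs hs1
      (fun y => by simpa only [hv2] using (hv2 (f y) ▸ hv1 (s (f y)) :)) hρ.1.le hρ.2
    have k4 := FF_le (fun e => hg (orderOf_eq_one_iff.mp e)) c hρ.1.le hρ.2
    have k5 : (tr G _).m ρ (Wf (fun i => (j3 1 g αY i, 1))
        (fun i => (j3 βS 1 βY i, j3 (fun _ => z) c (fun _ => z) i)) J1 N) =
        ∑ i, FF (Function.minimalPeriod (N * a) i) z⁻¹ ρ := by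
      rw [← mm_sum hρ.1.le hρ.2, Tr.m, hJ1, Wf_mon]
      congr 1
      funext k
      refine tr_mon (q := fun i => (q i, D i)) (fun i => ?_) k
      simp [a3, hD, mul_assoc]
    rw [← hNl, mul_assoc, mul_assoc _ _ (mon _ 1), hl] at k1
    rw [t1, t2, P1] at k2
    rw [← e2] at k3
    simp only [Wf] at k3 k5
    simp only [Complex.mul_re, Complex.natCast_re, Complex.natCast_im, mul_zero, sub_zero] at k2
    push_cast at k1
    linarith
  have pi3 := Real.pi_gt_three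
  have hSη : Fintype.card S * η + Fintype.card (Φ × Y) * η ≤ 2⁻¹ := by
    rw [← η1, hn1]; linarith
  have lim2 : Tendsto (FF 2 z) (𝓝[<] 1) (𝓝 ((2 * η - Real.pi) / (2 : ℕ))) :=
    FF_lim two_ne_zero (by linarith) (by nlinarith) (by rw [hz, ← Circle.exp_natCast_mul]; rfl)
  have fin := le_of_tendsto_of_tendsto (lim_sum (N * a) η0 (by linarith)).2
    (((lim_sum (NS * b) η0 (by nlinarith)).1.add (lim2.const_mul _)).add_const _)
    (by filter_upwards [Ioo_mem_nhdsLT one_pos] using key)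
  have f1 := mul_le_mul_of_nonneg_left a4 Real.pi_pos.le
  have f2 := mul_le_mul_of_nonneg_left b4 Real.pi_pos.le
  rw [← hnd] at fin f1
  rw [Nat.cast_ofNat, η1, hn1] at fin
  rw [hn1] at f1
  linarith

end Vale.Agent.P174
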