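import Mathlib

/-!
# P174: polynomial functions on a group of unitaries and their invariant derivations
-/

namespace Vale.Agent.P174

open Matrix MeasureTheory MvPolynomial

section alg
variable {R : Type*} [CommRing R] [Algebra ℂ R] {N : Type} [Fintype N] [DecidableEq N]

/-- Constant matrices. -/
noncomputable def cst (R : Type*) [CommRing R] [Algebra ℂ R] :
    Matrix N N ℂ →ₐ[ℂ] Matrix N N R := (Algebra.ofId ℂ R).mapMatrix

theorem cst_apply (A : Matrix N N ℂ) (p q : N) : cst R A p q = algebraMap ℂ R (A p q) := rfl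

/-- Entrywise derivation. -/
def dm (D : Derivation ℂ R R) (M : Matrix N N R) : Matrix N N R := M.map D

omit [Fintype N] [DecidableEq N] in
theorem dm_apply (D : Derivation ℂ R R) (M : Matrix N N R) (p q : N) : dm D M p q = D (M p q) := rfl

omit [DecidableEq N] in
theorem dm_mul (D : Derivation ℂ R R) (M M' : Matrix N N R) :
    dm D (M * M') = dm D M * M' + M * dm D M' := by
  ext p q
  simp only [dm_apply, mul_apply, map_sum, Matrix.add_apply, ← Finset.sum_add_distrib,
    Derivation.leibniz, smul_eq_mul]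
  exact Finset.sum_congr rfl fun r _ => by ring

theorem dm_cst (D : Derivation ℂ R R) (A : Matrix N N ℂ) : dm D (cst R A) = 0 := by
  ext p q; simp [dm_apply, cst_apply]

theorem dm_one (D : Derivation ℂ R R) : dm D (1 : Matrix N N R) = 0 := by
  rw [← map_one (cst R), dm_cst]

omit [Fintype N] [DecidableEq N] in
theorem dm_neg (D : Derivation ℂ R R) (M : Matrix N N R) : dm D (-M) = -dm D M := by
  ext p q; simp [dm_apply]

variable {K : Type} (g g' : K → Matrix N N R)

/-- The derivation `D` acts on the generators through `ξ`. -/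
def Acts (D : Derivation ℂ R R) (ξ : K → Matrix N N ℂ) : Prop :=
  ∀ k, dm D (g k) = cst R (ξ k) * g k ∧ dm D (g' k) = -(g' k * cst R (ξ k))

variable {g g'} {D D' : Derivation ℂ R R} {ξ ξ' : K → Matrix N N ℂ}

theorem Acts.zero : Acts g g' 0 0 := fun k => by
  constructor <;> (ext p q; simp [dm_apply])

theorem Acts.add (h : Acts g g' D ξ) (h' : Acts g g' D' ξ') : Acts g g' (D + D') (ξ + ξ') :=
  fun k => by
    have e : ∀ M : Matrix N N R, dm (D + D') M = dm D M + dm D' M := fun M => by
      ext p q; simp [dm_apply]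
    rw [e, e, (h k).1, (h k).2, (h' k).1, (h' k).2, Pi.add_apply, map_add, add_mul, mul_add]
    exact ⟨rfl, by abel⟩

theorem Acts.smul (h : Acts g g' D ξ) (c : ℂ) : Acts g g' (c • D) (c • ξ) := fun k => by
  have e : ∀ M : Matrix N N R, dm (c • D) M = c • dm D M := fun M => by
    ext p q; simp [dm_apply]
  rw [e, e, (h k).1, (h k).2, Pi.smul_apply, map_smul, smul_mul_assoc, mul_smul_comm, smul_neg]
  exact ⟨rfl, rfl⟩

theorem Acts.sum {ι : Type*} (s : Finset ι) {D : ι → Derivation ℂ R R}
    {ξ : ι → K → Matrix N N ℂ} (h : ∀ i, Acts g g' (D i) (ξ i)) :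
    Acts g g' (∑ i ∈ s, D i) (∑ i ∈ s, ξ i) := by
  classical
  induction s using Finset.induction_on with
  | empty => simpa using Acts.zero
  | insert a s ha ih => rw [Finset.sum_insert ha, Finset.sum_insert ha]; exact (h a).add ih

theorem Acts.lie (h : Acts g g' D ξ) (h' : Acts g g' D' ξ') :
    Acts g g' ⁅D, D'⁆ fun k => ξ' k * ξ k - ξ k * ξ' k := fun k => by
  have e : ∀ M : Matrix N N R, dm ⁅D, D'⁆ M = dm D (dm D' M) - dm D' (dm D M) := fun M => by
    ext p q; simp [dm_apply, Derivation.commutator_apply]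
  simp only [e, (h k).1, (h k).2, (h' k).1, (h' k).2, dm_mul, dm_neg, dm_cst, map_sub, map_mul]
  constructor <;> noncomm_ring

end alg

variable {T K N : Type} [Group T] [Fintype N] [DecidableEq N] (ρ : K → T →* unitaryGroup N ℂ)

/-- Values of the generators. -/
noncomputable def gv (s : K × Bool × N × N) (x : T) : ℂ :=
  if s.2.1 then (ρ s.1 x).1 s.2.2.1 s.2.2.2 else (star (ρ s.1 x).1) s.2.2.1 s.2.2.2

/-- Evaluation of polynomials as functions. -/
noncomputable def ev : MvPolynomial (K × Bool × N × N) ℂ →ₐ[ℂ] (T → ℂ) := aeval (gv ρ)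

/-- The algebra of polynomial functions. -/
noncomputable abbrev PF := (ev ρ).range

/-- Evaluation at a point. -/
noncomputable def at' (x : T) : PF ρ →ₐ[ℂ] ℂ := (Pi.evalAlgHom ℂ _ x).comp (ev ρ).range.val

theorem at'_apply (x : T) (f : PF ρ) : at' ρ x f = f.1 x := rfl

/-- Generic matrices. -/
noncomputable def gP (k : K) (b : Bool) : Matrix N N (MvPolynomial (K × Bool × N × N) ℂ) :=
  of fun p q => X (k, b, p, q)

noncomputable def gg (b : Bool) (k : K) : Matrix N N (PF ρ) := (gP k b).map (ev ρ).rangeRestrict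

theorem at'_gg_true (k : K) (x : T) : (at' ρ x).mapMatrix (gg ρ true k) = (ρ k x).1 := by
  ext p q
  show ev ρ (X (k, _, p, q)) x = _
  simp [ev, gv]

theorem at'_gg_false (k : K) (x : T) : (at' ρ x).mapMatrix (gg ρ false k) = star (ρ k x).1 := by
  ext p q
  show ev ρ (X (k, _, p, q)) x = _
  simp [ev, gv]

theorem mat_ext {M M' : Matrix N N (PF ρ)}
    (h : ∀ x, (at' ρ x).mapMatrix M = (at' ρ x).mapMatrix M') : M = M' := by
  ext p q x
  exact congrFun (congrFun (h x) p) q

theorem gg_mul (k : K) : gg ρ true k * gg ρ false k = 1 :=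
  mat_ext ρ fun x => by
    rw [map_mul, map_one, at'_gg_true, at'_gg_false]; exact (ρ k x).2.2

theorem gg_mul' (k : K) : gg ρ false k * gg ρ true k = 1 :=
  mat_ext ρ fun x => by
    rw [map_mul, map_one, at'_gg_true, at'_gg_false]; exact (ρ k x).2.1

theorem PF_bdd (f : PF ρ) : ∃ C, ∀ x, ‖f.1 x‖ ≤ C := by
  obtain ⟨_, P, rfl⟩ := f
  induction P using MvPolynomial.induction_on with
  | C a => exact ⟨‖a‖, fun x => by simp [ev]⟩
  | add p q hp hq =>
    obtain ⟨C, hC⟩ := hp
    obtain ⟨C', hC'⟩ := hq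
    refine ⟨C + C', fun x => ?_⟩
    simp only [map_add, AlgHom.toRingHom_eq_coe, RingHom.coe_coe, Pi.add_apply] at hC hC' ⊢
    exact norm_add_le_of_le (hC x) (hC' x)
  | mul_X p s hp =>
    obtain ⟨C, hC⟩ := hp
    refine ⟨C, fun x => ?_⟩
    have h1 : ‖gv ρ s x‖ ≤ 1 := by
      unfold gv
      split_ifs
      · exact entry_norm_bound_of_unitary (ρ _ x).2 _ _
      · rw [star_apply, norm_star]; exact entry_norm_bound_of_unitary (ρ _ x).2 _ _
    simp only [map_mul, AlgHom.toRingHom_eq_coe, RingHom.coe_coe, Pi.mul_apply, ev, aeval_X,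
      norm_mul] at hC ⊢
    exact (mul_le_of_le_one_right (norm_nonneg _) h1).trans (hC x)

theorem PF_cont {Y : Type} [TopologicalSpace Y] {e : Y → T}
    (h : ∀ k, Continuous fun y => (ρ k (e y)).1) (f : PF ρ) : Continuous fun y => f.1 (e y) := by
  obtain ⟨_, P, rfl⟩ := f
  induction P using MvPolynomial.induction_on with
  | C a => simpa [ev] using continuous_const
  | add p q hp hq =>
    simp only [map_add, AlgHom.toRingHom_eq_coe, RingHom.coe_coe, Pi.add_apply] at hp hq ⊢
    exact hp.add hq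
  | mul_X p s hp =>
    simp only [map_mul, AlgHom.toRingHom_eq_coe, RingHom.coe_coe, Pi.mul_apply, ev, aeval_X]
      at hp ⊢
    refine hp.mul ?_
    unfold gv
    split_ifs
    · exact (h _).matrix_elem _ _
    · exact (h _).star.matrix_elem _ _

/-- Values of the derivation on the generators. -/
noncomputable def dv (ξ : K → Matrix N N ℂ) (k : K) (b : Bool) :
    Matrix N N (MvPolynomial (K × Bool × N × N) ℂ) :=
  if b then cst _ (ξ k) * gP k true else -(gP k false * cst _ (ξ k))

/-- Rotation by the angle `t` on the range of `P`. -/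
noncomputable def rot (P : Matrix N N ℂ) (t : ℝ) : Matrix N N ℂ :=
  1 + (Complex.exp (t * Complex.I) - 1) • P

/-- Orthogonal projections. -/
def IsPr (P : Matrix N N ℂ) : Prop := star P = P ∧ P * P = P

theorem hasDeriv_rot {P : Matrix N N ℂ} (hP : P * P = P) (A B : Matrix N N ℂ) (ε : ℂ) (p q : N)
    (t : ℝ) : HasDerivAt (fun t : ℝ => (A * (1 + (Complex.exp (t * ε) - 1) • P) * B) p q)
      ((A * ((ε • P) * (1 + (Complex.exp (t * ε) - 1) • P)) * B) p q) t := by
  have h1 : HasDerivAt (fun t : ℝ => Complex.exp (t * ε)) (Complex.exp (t * ε) * ε) t := by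
    simpa using ((hasDerivAt_id (t : ℂ)).mul_const ε).cexp.comp_ofReal
  have h2 := ((h1.sub_const 1).mul_const ((A * P * B) p q)).const_add ((A * B) p q)
  simp only [mul_add, add_mul, mul_one, mul_smul_comm, smul_mul_assoc, Matrix.add_apply,
    Matrix.smul_apply, smul_eq_mul, hP]
  refine h2.congr_deriv ?_
  ring

theorem star_rot {P : Matrix N N ℂ} (hP : star P = P) (t : ℝ) :
    star (rot P t) = 1 + (Complex.exp (t * -Complex.I) - 1) • P := by
  simp [rot, hP, ← Complex.exp_conj]

theorem exists_der {c : ℝ → T} {P : K → Matrix N N ℂ} (hP : ∀ k, IsPr (P k))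
    (hc : ∀ k t, (ρ k (c t)).1 = rot (P k) t) :
    ∃ D : Derivation ℂ (PF ρ) (PF ρ),
      Acts (gg ρ true) (gg ρ false) D (fun k => Complex.I • P k) ∧
      ∀ (f : PF ρ) z t, HasDerivAt (fun t => f.1 (c t * z)) ((D f).1 (c t * z)) t := by
  set Xt : Derivation ℂ (MvPolynomial (K × Bool × N × N) ℂ) (MvPolynomial (K × Bool × N × N) ℂ) :=
    mkDerivation ℂ fun s => dv (fun k => Complex.I • P k) s.1 s.2.1 s.2.2.1 s.2.2.2 with hXt
  have e1 : ∀ k x, ((Pi.evalAlgHom ℂ _ x).comp (ev ρ)).mapMatrix (gP k true) = (ρ k x).1 :=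
    fun k x => by ext p q; simp [gP, ev, gv]
  have e2 : ∀ k x, ((Pi.evalAlgHom ℂ _ x).comp (ev ρ)).mapMatrix (gP k false) = star (ρ k x).1 :=
    fun k x => by ext p q; simp [gP, ev, gv]
  have e3 : ∀ (A : Matrix N N ℂ) x, ((Pi.evalAlgHom ℂ _ x).comp (ev ρ)).mapMatrix (cst _ A) = A :=
    fun A x => by ext p q; simp [cst_apply]
  have key : ∀ Q z t, HasDerivAt (fun t => ev ρ Q (c t * z)) (ev ρ (Xt Q) (c t * z)) t := by
    intro Q z t
    induction Q using MvPolynomial.induction_on with
    | C a => simpa [ev] using hasDerivAt_const t a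
    | add p q hp hq => simpa using hp.fun_add hq
    | mul_X p s hp =>
      have hs : HasDerivAt (fun t => ev ρ (X s) (c t * z)) (ev ρ (Xt (X s)) (c t * z)) t := by
        obtain ⟨k, b, p, q⟩ := s
        cases b
        · have h1 := congrFun (congrFun (map_neg (((Pi.evalAlgHom ℂ _ (c t * z)).comp
            (ev ρ)).mapMatrix) (gP k false * cst _ (Complex.I • P k))) p) q
          rw [map_mul, e2, e3] at h1
          have h2 := hasDeriv_rot (hP k).2 (star (ρ k z).1) 1 (-Complex.I) p q t
          simp only [hXt, dv, mkDerivation_X, ev, aeval_X, gv, map_mul, Submonoid.coe_mul, hc,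
            star_mul, star_rot (hP k).1, mul_one, Bool.false_eq_true, if_false] at h1 h2 ⊢
          refine h2.congr_deriv (Eq.trans ?_ h1.symm)
          refine congrFun (congrFun ?_ p) q
          simp only [mul_add, add_mul, mul_one, mul_smul_comm, smul_mul_assoc, (hP k).2,
            mul_assoc, smul_add, neg_add_rev, neg_smul, smul_neg, neg_mul, mul_neg]
          rw [smul_comm Complex.I, add_comm]
        · have h1 := congrFun (congrFun (map_mul (((Pi.evalAlgHom ℂ _ (c t * z)).comp
            (ev ρ)).mapMatrix) (cst _ (Complex.I • P k)) (gP k true)) p) q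
          rw [e1, e3] at h1
          have h2 := hasDeriv_rot (hP k).2 1 (ρ k z).1 Complex.I p q t
          simp only [hXt, dv, mkDerivation_X, ev, aeval_X, gv, map_mul, Submonoid.coe_mul, hc,
            one_mul, if_true, rot] at h2 ⊢
          refine h2.congr_deriv (Eq.trans ?_ h1.symm)
          simp only [mul_assoc, map_mul, Submonoid.coe_mul, hc, rot]
      have := hp.mul hs
      simp only [map_mul, Derivation.leibniz, smul_eq_mul, map_add, Pi.add_apply, Pi.mul_apply]
      refine this.congr_deriv ?_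
      ring
  have hc0 : ∀ Q z, ev ρ Q (c 0 * z) = ev ρ Q z := fun Q z => by
    have : ∀ s, gv ρ s (c 0 * z) = gv ρ s z := fun s => by simp [gv, hc, rot]
    have h2 : ∀ x, ev ρ Q x = aeval (fun s => gv ρ s x) Q := fun x =>
      DFunLike.congr_fun (comp_aeval (gv ρ) (Pi.evalAlgHom ℂ _ x)) Q
    simp only [h2, this]
  have hker : ∀ Q, (ev ρ).rangeRestrict Q = 0 → (ev ρ).rangeRestrict (Xt Q) = 0 := fun Q hQ => by
    have h0 : ev ρ Q = 0 := congrArg Subtype.val hQ
    ext z
    have h1 := key Q z 0
    rw [h0, hc0] at h1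
    exact h1.unique (hasDerivAt_const (0 : ℝ) (0 : ℂ))
  refine ⟨Derivation.liftOfSurjective (ev ρ).rangeRestrict_surjective hker, fun k => ?_, ?_⟩
  · have e4 : ∀ A : Matrix N N ℂ, (ev ρ).rangeRestrict.mapMatrix (cst _ A) = cst _ A := fun A => by
      ext p q : 2; simp only [cst_apply, AlgHom.mapMatrix_apply, map_apply, AlgHom.commutes]
    constructor
    · rw [← e4, gg, ← AlgHom.mapMatrix_apply, ← map_mul]
      ext p q : 2
      simp only [dm_apply, AlgHom.mapMatrix_apply, map_apply, gP, of_apply,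
        Derivation.liftOfSurjective_apply, hXt, dv, mkDerivation_X, if_true]
    · rw [← e4, gg, ← AlgHom.mapMatrix_apply, ← map_mul, ← map_neg]
      ext p q : 2
      simp only [dm_apply, AlgHom.mapMatrix_apply, map_apply, gP, of_apply,
        Derivation.liftOfSurjective_apply, hXt, dv, mkDerivation_X, Bool.false_eq_true, if_false]
  · intro f z t
    obtain ⟨Q, rfl⟩ := (ev ρ).rangeRestrict_surjective f
    rw [Derivation.liftOfSurjective_apply]
    exact key Q z t

end Vale.Agent.P174
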