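import Vale.Agent.P174.Alg
import Vale.Agent.P174.Gen

/-!
# P174: the Jacobian of the degree map
-/

namespace Vale.Agent.P174

open Matrix Finset
open scoped Kronecker

/-- Names of the matrix variables. -/
inductive Kx (J Q : Type)
  | u (j : J) | v (j : J) | z (j : J) | b (k : Q)
  deriving DecidableEq

variable {J Φ N' Q : Type}

/-- Both indices lie in the distinguished block. -/
def WW (p q : Φ ⊕ N') : Prop := p.isLeft = true ∧ q.isLeft = true

instance (p q : Φ ⊕ N') : Decidable (WW p q) := by unfold WW; infer_instance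

/-- Index set of the directions. -/
abbrev Ix (J Φ N' : Type) := ((Φ ⊕ N') × (Φ ⊕ N')) × J

variable [DecidableEq J] [DecidableEq Φ] [DecidableEq N'] [DecidableEq Q]

def kind (Q : Type) (a : Ix J Φ N') : Kx J Q :=
  if WW a.1.1 a.1.2 then .u a.2 else if a.1.1 = a.1.2 then .z a.2 else .v a.2

/-- The direction attached to an index. -/
def dir (Q : Type) [DecidableEq Q] (a : Ix J Φ N') : Kx J Q → Matrix (Φ ⊕ N') (Φ ⊕ N') ℂ :=
  Pi.single (kind Q a) (single a.1.1 a.1.2 1)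

theorem dir_apply (a : Ix J Φ N') (k : Kx J Q) (r s : Φ ⊕ N') :
    dir Q a k r s = if k = kind Q a ∧ a.1.1 = r ∧ a.1.2 = s then 1 else 0 := by
  rw [dir, Pi.single_apply]
  by_cases h : k = kind Q a <;> simp [h, single_apply]

omit [DecidableEq J] [DecidableEq Q] in
theorem kind_ne_b (a : Ix J Φ N') (k : Q) : Kx.b k ≠ kind Q a := by
  unfold kind; split_ifs <;> simp

theorem dir_b (a : Ix J Φ N') (k : Q) : dir Q a (.b k) = 0 := by
  ext r s; simp [dir_apply, kind_ne_b]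

theorem dir_u (a : Ix J Φ N') (j : J) {r s : Φ ⊕ N'} (h : ¬WW r s) : dir Q a (.u j) r s = 0 := by
  rw [dir_apply, if_neg]
  rintro ⟨h1, rfl, rfl⟩
  simp only [kind, h, if_false] at h1
  split_ifs at h1

theorem dir_z (a : Ix J Φ N') (j : J) {r s : Φ ⊕ N'} (h : r ≠ s) : dir Q a (.z j) r s = 0 := by
  rw [dir_apply, if_neg]
  rintro ⟨h1, rfl, rfl⟩
  simp only [kind, h, if_false] at h1
  split_ifs at h1

variable [Fintype J] [Fintype Φ] [Fintype N']

theorem sum_dir (η : Kx J Q → Matrix (Φ ⊕ N') (Φ ⊕ N') ℂ) (k : Kx J Q) (r s : Φ ⊕ N') :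
    (∑ c : Ix J Φ N', η (kind Q c) c.1.1 c.1.2 • dir Q c) k r s =
      if ∃ j, k = kind Q ((r, s), j) then η k r s else 0 := by
  simp only [Finset.sum_apply, Matrix.sum_apply, Pi.smul_apply, Matrix.smul_apply, dir_apply,
    smul_eq_mul]
  split_ifs with h
  · obtain ⟨j, rfl⟩ := h
    rw [sum_eq_single ((r, s), j)]
    · simp
    · rintro ⟨⟨p, q⟩, j'⟩ _ hne
      rw [if_neg, mul_zero]
      rintro ⟨h1, rfl, rfl⟩
      refine hne ?_
      simp only [kind] at h1
      split_ifs at h1 <;> simp_all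
    · simp
  · refine sum_eq_zero fun c _ => ?_
    rw [if_neg, mul_zero]
    rintro ⟨h1, rfl, rfl⟩
    exact h ⟨c.2, h1⟩

variable (R : Type) [CommRing R] [Algebra ℂ R]

/-- The algebraic data of the degree map. -/
structure Frm (J Φ N' Q : Type) [DecidableEq Φ] [DecidableEq N'] [Fintype Φ] [Fintype N'] where
  g : Kx J Q → Matrix (Φ ⊕ N') (Φ ⊕ N') R
  g' : Kx J Q → Matrix (Φ ⊕ N') (Φ ⊕ N') R
  hg : ∀ k, g k * g' k = 1
  hg' : ∀ k, g' k * g k = 1
  δ : J → Φ ⊕ N' → R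
  δ' : J → Φ ⊕ N' → R
  hδ : ∀ j, g (.z j) = diagonal (δ j)
  hδ' : ∀ j, g' (.z j) = diagonal (δ' j)
  δ1 : ∀ j a, δ j (.inl a) = 1
  δ1' : ∀ j a, δ' j (.inl a) = 1
  Ψ : J → (Matrix (Φ ⊕ N') (Φ ⊕ N') R)ˣ
  hΨ : ∀ D ξ, Acts g g' D ξ → (∀ j, ξ (.u j) = 0) → (∀ k, ξ (.b k) = 0) → ∀ j, dm D (Ψ j).1 = 0

namespace Frm
variable {R} (F : Frm R J Φ N' Q)

noncomputable def G (j : J) : Matrix (Φ ⊕ N') (Φ ⊕ N') R :=
  (F.Ψ j).1 * (F.g' (.v j) * (F.g (.z j) * F.g (.v j)))

noncomputable def G' (j : J) : Matrix (Φ ⊕ N') (Φ ⊕ N') R :=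
  F.g' (.v j) * (F.g' (.z j) * (F.g (.v j) * ((F.Ψ j)⁻¹).1))

/-- The pulled back invariant form. -/
noncomputable def Θ (D : Derivation ℂ R R) (j : J) : Matrix (Φ ⊕ N') (Φ ⊕ N') R :=
  F.G' j * dm D (F.G j)

omit [DecidableEq J] [DecidableEq Q] [Fintype J]

theorem c1 (k : Kx J Q) (M : Matrix (Φ ⊕ N') (Φ ⊕ N') R) : F.g k * (F.g' k * M) = M := by
  rw [← mul_assoc, F.hg, one_mul]

theorem c2 (k : Kx J Q) (M : Matrix (Φ ⊕ N') (Φ ⊕ N') R) : F.g' k * (F.g k * M) = M := by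
  rw [← mul_assoc, F.hg', one_mul]

theorem GG' (j : J) : F.G j * F.G' j = 1 := by
  simp only [G, G', mul_assoc, c1, c2, Units.mul_inv]

theorem G'G (j : J) : F.G' j * F.G j = 1 := by
  simp only [G, G', mul_assoc, Units.inv_mul_cancel_left, c1, c2, F.hg']

theorem δδ (j : J) (p : Φ ⊕ N') : F.δ' j p * F.δ j p = 1 := by
  have := congrFun (congrFun (F.hg' (.z j)) p) p
  simpa [F.hδ, F.hδ'] using this

theorem dm_G (D : Derivation ℂ R R) (j : J) : dm D (F.G j) = F.G j * F.Θ D j := by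
  rw [Θ, ← mul_assoc, GG', one_mul]

theorem dm_G' (D : Derivation ℂ R R) (j : J) : dm D (F.G' j) = -(F.Θ D j * F.G' j) := by
  have := dm_mul D (F.G' j) (F.G j)
  rw [G'G, dm_one] at this
  have h2 := congrArg (· * F.G' j) this
  simp only [zero_mul, add_mul, mul_assoc, GG', mul_one] at h2
  rw [Θ, mul_assoc, eq_neg_iff_add_eq_zero, ← h2]

variable {F}

theorem th_eq {D : Derivation ℂ R R} {ξ : Kx J Q → Matrix (Φ ⊕ N') (Φ ⊕ N') ℂ}
    (h : Acts F.g F.g' D ξ) (j : J) (r s : Φ ⊕ N') :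
    (F.g (.v j) * F.Θ D j * F.g' (.v j)) r s =
      F.δ' j r * (F.g (.v j) * (((F.Ψ j)⁻¹).1 * dm D (F.Ψ j).1) * F.g' (.v j)) r s * F.δ j s +
      (algebraMap ℂ R (ξ (.v j) r s) * (1 - F.δ' j r * F.δ j s) +
        F.δ' j r * algebraMap ℂ R (ξ (.z j) r s) * F.δ j s) := by
  have e : F.g (.v j) * F.Θ D j * F.g' (.v j) =
      F.g' (.z j) * (F.g (.v j) * (((F.Ψ j)⁻¹).1 * dm D (F.Ψ j).1) * F.g' (.v j)) * F.g (.z j) +
      (cst R (ξ (.v j)) - F.g' (.z j) * cst R (ξ (.v j)) * F.g (.z j) +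
        F.g' (.z j) * cst R (ξ (.z j)) * F.g (.z j)) := by
    simp only [Θ, G, G', dm_mul, (h _).1, (h _).2, mul_add, add_mul, mul_neg, neg_mul, mul_assoc,
      c1, c2, Units.inv_mul_cancel_left, F.hg, mul_one]
    abel
  rw [e]
  simp only [F.hδ, F.hδ', Matrix.add_apply, Matrix.sub_apply, mul_diagonal, diagonal_mul,
    cst_apply]
  ring

theorem null {D : Derivation ℂ R R} {ζ : Kx J Q → Matrix (Φ ⊕ N') (Φ ⊕ N') ℂ}
    (h : Acts F.g F.g' D ζ) (hu : ∀ j, ζ (.u j) = 0) (hz : ∀ j, ζ (.z j) = 0)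
    (hb : ∀ k, ζ (.b k) = 0) (hv : ∀ j r s, ¬WW r s → r ≠ s → ζ (.v j) r s = 0) (j : J) :
    F.Θ D j = 0 := by
  have e : F.g (.v j) * F.Θ D j * F.g' (.v j) = 0 := by
    ext r s
    rw [th_eq h, F.hΨ D ζ h hu hb, hz]
    by_cases h1 : WW r s
    · rcases r with r | r <;> rcases s with s | s <;> simp_all [WW, F.δ1, F.δ1']
    · by_cases h2 : r = s
      · simp [h2, δδ]
      · simp [hv j r s h1 h2]
  have := congrArg (fun M => F.g' (.v j) * M * F.g (.v j)) e
  simpa only [mul_assoc, c2, F.hg', mul_one, mul_zero, zero_mul] using this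

theorem Θ_lie (D D' : Derivation ℂ R R) (j : J) : dm D (F.Θ D' j) - dm D' (F.Θ D j) =
    F.Θ ⁅D, D'⁆ j + (F.Θ D' j * F.Θ D j - F.Θ D j * F.Θ D' j) := by
  have e : dm ⁅D, D'⁆ (F.G j) = dm D (dm D' (F.G j)) - dm D' (dm D (F.G j)) := by
    ext p q; simp [dm_apply, Derivation.commutator_apply]
  have e2 : ∀ D D' : Derivation ℂ R R, dm D (F.Θ D' j) =
      F.G' j * dm D (dm D' (F.G j)) - F.Θ D j * F.Θ D' j := fun D D' => by
    rw [Θ, dm_mul, dm_G', neg_mul, mul_assoc, neg_add_eq_sub]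
  rw [e2, e2, show F.Θ ⁅D, D'⁆ j = F.G' j * dm ⁅D, D'⁆ (F.G j) from rfl, e, mul_sub]
  abel

end Frm

theorem der_sum {R ι : Type} [CommRing R] [Algebra ℂ R] (s : Finset ι) (D : ι → Derivation ℂ R R)
    (x : R) : (∑ i ∈ s, D i) x = ∑ i ∈ s, D i x := by
  classical
  induction s using Finset.induction_on with
  | empty => simp
  | insert a s ha ih => rw [sum_insert ha, sum_insert ha, Derivation.add_apply, ih]

/-- The scalar function peaked at the identity. -/
noncomputable def Frm.φ {R : Type} [CommRing R] [Algebra ℂ R] (F : Frm R J Φ N' Q) : R :=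
  (4 * (Fintype.card J * Fintype.card (Φ ⊕ N') : ℂ) + 1)⁻¹ •
    ((2 * (Fintype.card J * Fintype.card (Φ ⊕ N')) + 1 : R) + ∑ j, (trace (F.G j) + trace (F.G' j)))

/-- The Jacobian matrix. -/
noncomputable def Frm.jm {R : Type} [CommRing R] [Algebra ℂ R] (F : Frm R J Φ N' Q)
    (X : Ix J Φ N' → Derivation ℂ R R) : Matrix (Ix J Φ N') (Ix J Φ N') R :=
  of fun a i => F.Θ (X a) i.2 i.1.1 i.1.2

variable {R} {F : Frm R J Φ N' Q} {X : Ix J Φ N' → Derivation ℂ R R}

theorem Frm.closed (hX : ∀ a, Acts F.g F.g' (X a) (dir Q a)) {X0 : Derivation ℂ R R} {k0 : Q}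
    {A0 : Matrix (Φ ⊕ N') (Φ ⊕ N') ℂ} (h0 : Acts F.g F.g' X0 (Pi.single (.b k0) A0)) (m : ℕ) :
    ∃ w : Ix J Φ N' → R, X0 (F.φ ^ m * (F.jm X).det) = -∑ a, X a (w a) := by
  set Y : Option (Ix J Φ N') → Derivation ℂ R R := fun a => a.elim X0 X with hY
  set ξ : Option (Ix J Φ N') → Kx J Q → Matrix (Φ ⊕ N') (Φ ⊕ N') ℂ :=
    fun a => a.elim (Pi.single (.b k0) A0) (dir Q) with hξ
  have hYξ : ∀ a, Acts F.g F.g' (Y a) (ξ a) := fun a => by cases a; exacts [h0, hX _]
  have ξu : ∀ a j r s, ¬WW r s → ξ a (.u j) r s = 0 := fun a j r s h => by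
    cases a; exacts [by simp [hξ], dir_u _ _ h]
  have ξz : ∀ a j r s, r ≠ s → ξ a (.z j) r s = 0 := fun a j r s h => by
    cases a; exacts [by simp [hξ], dir_z _ _ h]
  set η : Option (Ix J Φ N') → Option (Ix J Φ N') → Kx J Q → Matrix (Φ ⊕ N') (Φ ⊕ N') ℂ :=
    fun a b k => ξ b k * ξ a k - ξ a k * ξ b k with hη
  have ηu : ∀ a b j r s, ¬WW r s → η a b (.u j) r s = 0 := fun a b j r s h => by
    have : ∀ a b, (ξ a (.u j) * ξ b (.u j)) r s = 0 := fun a b => by
      rw [mul_apply]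
      refine sum_eq_zero fun t _ => ?_
      by_cases h1 : WW r t
      · rw [ξu b j t s fun h2 => h ⟨h1.1, h2.2⟩, mul_zero]
      · rw [ξu a j r t h1, zero_mul]
    simp [hη, this]
  have ηz : ∀ a b j, η a b (.z j) = 0 := fun a b j => by
    have : ∀ a, ξ a (.z j) = diagonal fun r => ξ a (.z j) r r := fun a => by
      ext r s
      by_cases h : r = s
      · simp [h]
      · rw [ξz a j r s h, diagonal_apply_ne _ h]
    simp only [hη]
    rw [this a, this b, diagonal_mul_diagonal, diagonal_mul_diagonal]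
    simp [mul_comm]
  have ηb : ∀ a b k, η a b (.b k) = 0 := fun a b k => by
    cases a <;> cases b <;> simp [hη, hξ, dir_b]
  have hΘ : ∀ a b j, F.Θ ⁅Y a, Y b⁆ j =
      ∑ c : Ix J Φ N', η a b (kind Q c) c.1.1 c.1.2 • F.Θ (X c) j := fun a b j => by
    have h1 := ((hYξ a).lie (hYξ b)).add ((Acts.sum univ fun c =>
      (hX c).smul (η a b (kind Q c) c.1.1 c.1.2)).smul (-1))
    have h2 := Frm.null h1 (fun j => ?_) (fun j => ?_) (fun k => ?_) (fun j r s h h' => ?_) j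
    · rw [← sub_eq_zero, ← h2]
      simp only [Frm.Θ, ← mul_smul_comm, ← mul_sum, ← mul_sub]
      congr 1
      ext p q
      simp [dm_apply, Matrix.sum_apply, der_sum, sub_eq_add_neg]
    · ext r s
      simp only [Pi.add_apply, Pi.smul_apply, Matrix.add_apply, Matrix.smul_apply, sum_dir]
      by_cases h : WW r s
      · rw [if_pos ⟨j, by simp [kind, h]⟩]; simp [hη]
      · have := ηu a b j r s h
        simp only [hη] at this
        simp [hη, this]
    · ext r s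
      have := congrFun (congrFun (ηz a b j) r) s
      simp only [hη, Matrix.sub_apply, Matrix.zero_apply] at this
      simp only [Pi.add_apply, Pi.smul_apply, Matrix.add_apply, Matrix.smul_apply, sum_dir]
      simp [ηz, this]
    · ext r s
      have := congrFun (congrFun (ηb a b k) r) s
      simp only [hη, Matrix.sub_apply, Matrix.zero_apply] at this
      simp only [Pi.add_apply, Pi.smul_apply, Matrix.add_apply, Matrix.smul_apply, sum_dir]
      simp [ηb, this]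
    · simp only [Pi.add_apply, Pi.smul_apply, Matrix.add_apply, Matrix.smul_apply, sum_dir]
      rw [if_pos ⟨j, by simp [kind, h, h']⟩]; simp [hη]
  have key := piola (fun a (i : Ix J Φ N') => F.Θ (Y a) i.2 i.1.1 i.1.2) Y
    (fun a b c => c.elim 0 fun c => algebraMap ℂ R (η a b (kind Q c) c.1.1 c.1.2))
    (fun _ (t : (Φ ⊕ N') ⊕ (Φ ⊕ N')) => t.elim (fun _ => -1) fun _ => 1)
    (fun i t => t.elim (fun r => ((i.1.1, r), i.2)) fun r => ((r, i.1.2), i.2))
    (fun i t => t.elim (fun r => ((r, i.1.2), i.2)) fun r => ((i.1.1, r), i.2))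
    (fun a b i => ?_) (fun a b c => ?_) (fun a => ?_) (F.φ ^ m)
    (fun i => m • F.φ ^ (m - 1) * ((4 * (Fintype.card J * Fintype.card (Φ ⊕ N') : ℂ) + 1)⁻¹ •
      (F.G i.2 i.1.2 i.1.1 - F.G' i.2 i.1.2 i.1.1))) fun a => ?_
  · rw [Fintype.sum_option, det_nm_none] at key
    exact ⟨_, eq_neg_of_add_eq_zero_left key⟩
  · have := congrFun (congrFun (F.Θ_lie (Y a) (Y b) i.2) i.1.1) i.1.2
    rw [hΘ] at this
    refine Eq.trans this ?_
    rw [Fintype.sum_option, Fintype.sum_sum_type (α₁ := Φ ⊕ N')]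
    simp only [Matrix.add_apply, Matrix.sub_apply, Matrix.sum_apply, Matrix.smul_apply, mul_apply,
      Option.elim_none, Option.elim_some, Sum.elim_inl, Sum.elim_inr, zero_mul, zero_add, neg_mul,
      one_mul, sum_neg_distrib, mul_comm (F.Θ (Y b) _ _ _)]
    simp only [Algebra.smul_def, show ∀ c, Y (some c) = X c from fun _ => rfl]
    ring
  · cases c
    · simp
    · simp only [Option.elim, hη, Matrix.sub_apply, map_sub, neg_sub]
  · rw [Fintype.sum_option]
    simp only [Option.elim, zero_add, ← map_sum]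
    have e : ∀ c : Ix J Φ N', η a (some c) (kind Q c) c.1.1 c.1.2 =
        ξ a (kind Q c) c.1.2 c.1.2 - ξ a (kind Q c) c.1.1 c.1.1 := fun c => by
      simp [hη, hξ, dir]
    have e2 : ∀ c : Ix J Φ N', kind Q (c.1.swap, c.2) = kind Q c := fun c => by
      simp only [kind, WW, Prod.fst_swap, Prod.snd_swap, and_comm, eq_comm (a := c.1.2)]
    simp only [e, sum_sub_distrib]
    rw [← (Equiv.prodCongr (Equiv.prodComm _ _) (Equiv.refl J)).sum_comp]
    simp [Prod.map, e2]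
  · rw [Derivation.leibniz_pow, Frm.φ]
    simp only [Derivation.map_smul, map_add, map_sum, smul_eq_mul, mul_assoc, ← mul_sum,
      smul_mul_assoc, ← smul_sum]
    congr 3
    have e0 : Y a (2 * (Fintype.card J * Fintype.card (Φ ⊕ N')) : R) = 0 := by
      have := (Y a).map_natCast (2 * (Fintype.card J * Fintype.card (Φ ⊕ N')))
      push_cast at this
      exact this
    rw [e0, Derivation.map_one_eq_zero, add_zero, zero_add, Fintype.sum_prod_type_right]
    refine sum_congr rfl fun j _ => ?_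
    have e1 : ∀ M : Matrix (Φ ⊕ N') (Φ ⊕ N') R, Y a (trace M) = trace (dm (Y a) M) := fun M => by
      simp only [trace, Matrix.diag, map_sum, dm_apply]
    rw [e1, e1, F.dm_G, F.dm_G', trace_neg, trace_mul_comm (F.Θ _ _), ← sub_eq_add_neg,
      ← trace_sub, ← sub_mul, Fintype.sum_prod_type_right]
    rfl

omit [DecidableEq Q] [Algebra ℂ R] in
theorem det_ad {n : Type} [Fintype n] [DecidableEq n] (A B : J → Matrix n n R)
    (h : ∀ j, A j * B j = 1) : (blockDiagonal fun j => (A j)ᵀ ⊗ₖ B j).det = 1 := by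
  rw [det_blockDiagonal]
  refine prod_eq_one fun j _ => ?_
  rw [det_kronecker, det_transpose, ← mul_pow, ← det_mul, h, det_one, one_pow]

/-- The factor of the Jacobian coming from the distinguished block. -/
noncomputable def Frm.hm (F : Frm R J Φ N' Q) (X : Ix J Φ N' → Derivation ℂ R R) :
    Matrix ((Φ × Φ) × J) ((Φ × Φ) × J) R :=
  of fun a i => (F.g (.v i.2) * (((F.Ψ i.2)⁻¹).1 * dm (X ((.inl a.1.1, .inl a.1.2), a.2))
    (F.Ψ i.2).1) * F.g' (.v i.2)) (.inl i.1.1) (.inl i.1.2)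

/-- The remaining factors of the Jacobian. -/
noncomputable def Frm.pi (F : Frm R J Φ N' Q) (a : Ix J Φ N') : R :=
  if a.1.1 = a.1.2 then 1 else 1 - F.δ' a.2 a.1.1 * F.δ a.2 a.1.2

theorem Frm.det_jm (hX : ∀ a, Acts F.g F.g' (X a) (dir Q a)) :
    (F.jm X).det = (F.hm X).det * ∏ a : Ix J Φ N' with ¬WW a.1.1 a.1.2, F.pi a := by
  set M : Matrix (Ix J Φ N') (Ix J Φ N') R :=
    of fun a i => (F.g (.v i.2) * F.Θ (X a) i.2 * F.g' (.v i.2)) i.1.1 i.1.2 with hM
  have e1 : F.jm X = M * blockDiagonal fun j => (F.g' (.v j))ᵀ ⊗ₖ F.g (.v j) := by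
    ext a ⟨⟨p, q⟩, j⟩
    have : F.Θ (X a) j = F.g' (.v j) * (F.g (.v j) * F.Θ (X a) j * F.g' (.v j)) * F.g (.v j) := by
      simp only [mul_assoc, F.c2, F.hg', mul_one]
    rw [Frm.jm, of_apply, this, mul_apply (M := M), Fintype.sum_prod_type_right,
      sum_eq_single j (fun j' _ h => by simp [blockDiagonal_apply, h]) (by simp),
      Fintype.sum_prod_type_right, mul_apply]
    refine sum_congr rfl fun s _ => ?_
    rw [mul_apply, sum_mul]
    refine sum_congr rfl fun r _ => ?_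
    simp only [hM, of_apply, blockDiagonal_apply_eq, kroneckerMap_apply, transpose_apply]
    ring
  have e2 : ∀ a : Ix J Φ N', ¬WW a.1.1 a.1.2 → ∀ i, M a i = if a = i then F.pi a else 0 := by
    rintro ⟨⟨p, q⟩, j⟩ ha ⟨⟨r, s⟩, j'⟩
    have hu : ∀ j', dir Q ((p, q), j) (.u j') = 0 := fun j' => by
      ext r s
      simp only [dir_apply, kind, ha, if_false]
      split_ifs <;> simp_all
    simp only [hM, of_apply]
    rw [Frm.th_eq (hX _), F.hΨ _ _ (hX _) hu (dir_b _)]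
    simp only [dir_apply, kind, ha, if_false, Frm.pi]
    by_cases h1 : p = q
    · subst h1
      by_cases h2 : j' = j ∧ p = r ∧ p = s
      · obtain ⟨rfl, rfl, rfl⟩ := h2
        simp [F.δδ]
      · rw [if_neg (c := (_ : Ix J Φ N') = _) (by simp only [Prod.mk.injEq]; tauto)]
        simp [h2]
    · by_cases h2 : j' = j ∧ p = r ∧ q = s
      · obtain ⟨rfl, rfl, rfl⟩ := h2
        simp [h1]
      · rw [if_neg (c := (_ : Ix J Φ N') = _) (by simp only [Prod.mk.injEq]; tauto)]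
        simp [h1, h2]
  rw [e1, det_mul, det_ad _ _ fun j => F.hg' _, mul_one,
    twoBlockTriangular_det M (fun a => WW a.1.1 a.1.2) fun a ha i hi => by
      rw [e2 a ha, if_neg fun e : a = i => ha (e ▸ hi)]]
  congr 1
  · let e : (Φ × Φ) × J ≃ {a : Ix J Φ N' // WW a.1.1 a.1.2} :=
      { toFun := fun a => ⟨((.inl a.1.1, .inl a.1.2), a.2), rfl, rfl⟩
        invFun := fun a => ((a.1.1.1.getLeft a.2.1, a.1.1.2.getLeft a.2.2), a.1.2)
        left_inv := fun a => rfl
        right_inv := fun a => by simp }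
    rw [← det_submatrix_equiv_self e]
    congr 1
    ext a i
    have he : ∀ a, (e a).1 = ((.inl a.1.1, .inl a.1.2), a.2) := fun _ => rfl
    simp only [submatrix_apply, toSquareBlockProp_def, of_apply, hM, he, Frm.hm]
    rw [Frm.th_eq (hX _)]
    simp [F.δ1, F.δ1', dir_apply, kind, WW]
  · rw [prod_subtype (p := fun a : Ix J Φ N' => ¬WW a.1.1 a.1.2) _ (by simp), ← det_diagonal]
    congr 1
    ext a i
    simp only [toSquareBlockProp_def, of_apply, e2 a.1 a.2, diagonal_apply, Subtype.ext_iff]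

end Vale.Agent.P174
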