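import Vale.Agent.P174.Gen

/-!
# P174: invariant integration
-/

namespace Vale.Agent.P174

open Matrix MeasureTheory Filter Topology

instance compactU (n : Type) [Fintype n] [DecidableEq n] : CompactSpace (unitaryGroup n ℂ) := by
  refine isCompact_iff_compactSpace.mp ?_
  have h : IsCompact (Set.pi Set.univ fun _ : n => Set.pi Set.univ fun _ : n =>
      Metric.closedBall (0 : ℂ) 1) :=
    isCompact_univ_pi fun _ => isCompact_univ_pi fun _ => isCompact_closedBall _ _
  refine IsCompact.of_isClosed_subset (s := (Set.pi Set.univ fun _ : n => Set.pi Set.univ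
    fun _ : n => Metric.closedBall (0 : ℂ) 1 : Set (Matrix n n ℂ))) h
    (isClosed_unitary (R := Matrix n n ℂ)) fun U hU i _ j _ => ?_
  simpa using entry_norm_bound_of_unitary hU i j

theorem span_pr {n : Type} [Fintype n] [DecidableEq n] (W : Submodule ℂ (Matrix n n ℂ))
    (h : ∀ P, IsPr P → P ∈ W) (A : Matrix n n ℂ) : A ∈ W := by
  have h1 : ∀ p, single p p (1 : ℂ) ∈ W := fun p =>
    h _ ⟨by simp [star_eq_conjTranspose], by simp⟩
  have h2 : ∀ p q, p ≠ q → ∀ c : ℂ, star c * c = 1 → (2⁻¹ : ℂ) • (single p p 1 + single q q 1 +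
      single p q c + single q p (star c)) ∈ W := fun p q hpq c hc => by
    refine h _ ⟨?_, ?_⟩
    · simp only [star_smul, star_add, star_eq_conjTranspose, conjTranspose_single, star_one,
        star_star, star_inv₀, star_ofNat]
      congr 1; abel
    · simp only [smul_mul_assoc, mul_smul_comm, add_mul, mul_add, single_mul_single_same,
        single_mul_single_of_ne _ _ _ _ hpq, single_mul_single_of_ne _ _ _ _ hpq.symm, hc,
        mul_comm c, one_mul, mul_one]
      module
  have h3 : ∀ p q, single p q (1 : ℂ) ∈ W := fun p q => by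
    by_cases hpq : p = q
    · subst hpq; exact h1 p
    · have := W.sub_mem (W.sub_mem (h2 p q hpq 1 (by simp))
        (W.smul_mem Complex.I (h2 p q hpq Complex.I (by simp))))
        (W.smul_mem ((1 - Complex.I) / 2) (W.add_mem (h1 p) (h1 q)))
      refine (congrArg (· ∈ W) ?_).mp this
      ext r s
      simp only [Matrix.sub_apply, Matrix.smul_apply, Matrix.add_apply, single_apply, smul_eq_mul,
        star_one, Complex.star_def, Complex.conj_I]
      have hI := Complex.I_mul_I
      split_ifs <;> first | ring1 | linear_combination (-2⁻¹ : ℂ) * hI |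
        linear_combination (2⁻¹ : ℂ) * hI
  rw [matrix_eq_sum_single A]
  refine W.sum_mem fun p _ => W.sum_mem fun q _ => ?_
  simpa using W.smul_mem (A p q) (h3 p q)

theorem prod_invol {ι : Type*} [DecidableEq ι] (s : Finset ι) (τ : ι → ι) (hs : ∀ i ∈ s, τ i ∈ s)
    (hτ : ∀ i, τ (τ i) = i) (f : ι → ℂ) (hf : ∀ i ∈ s, f (τ i) = star (f i))
    (h0 : ∀ i ∈ s, τ i = i → 0 ≤ (f i).re) :
    ∃ r : ℝ, 0 ≤ r ∧ ∏ i ∈ s, f i = r := by
  by_cases hz : ∃ i ∈ s, f i = 0
  · obtain ⟨i, hi, e⟩ := hz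
    exact ⟨0, le_rfl, by rw [Finset.prod_eq_zero hi e]; simp⟩
  push Not at hz
  have h1 : ∏ i ∈ s, (f i / (‖f i‖ : ℂ)) = 1 := by
    refine Finset.prod_involution (fun i _ => τ i) (fun i hi => ?_) (fun i hi hne e => hne ?_) hs
      fun i _ => hτ i
    · have : (‖f i‖ : ℂ) ≠ 0 := by simpa using hz i hi
      rw [hf i hi, norm_star, div_mul_div_comm, Complex.star_def, Complex.mul_conj,
        Complex.normSq_eq_norm_sq, div_eq_one_iff_eq (mul_ne_zero this this)]
      push_cast; ring
    · have h2 := hf i hi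
      rw [e] at h2
      obtain ⟨r, hr⟩ := Complex.conj_eq_iff_real.mp h2.symm
      have h3 := h0 i hi e
      have h4 := hz i hi
      rw [hr] at h3 h4 ⊢
      rw [Complex.norm_real, Real.norm_of_nonneg (show 0 ≤ r from h3), div_self h4]
  refine ⟨∏ i ∈ s, ‖f i‖, Finset.prod_nonneg fun _ _ => norm_nonneg _, ?_⟩
  rw [Finset.prod_div_distrib, div_eq_one_iff_eq
    (Finset.prod_ne_zero_iff.mpr fun i hi => by simpa using hz i hi)] at h1
  rw [h1]; push_cast; rfl

variable {S : Type} [TopologicalSpace S] [CompactSpace S] [MeasurableSpace S] [BorelSpace S]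
  (μ : Measure S) [IsFiniteMeasure μ]

theorem integrable_cont {E : Type} [NormedAddCommGroup E] [SecondCountableTopology E] {f : S → E}
    (hf : Continuous f) : Integrable f μ := by
  obtain ⟨C, hC⟩ := isCompact_univ.exists_bound_of_continuousOn hf.continuousOn
  exact Integrable.of_bound hf.aestronglyMeasurable C
    (Eventually.of_forall fun x => hC x (Set.mem_univ x))

omit [MeasurableSpace S] [BorelSpace S] in
theorem exists_lt_one {a : S → ℝ} (ha : Continuous a) {Z : Set S} (hZ : IsClosed Z)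
    (h : ∀ x ∈ Z, a x < 1) : ∃ β, 0 ≤ β ∧ β < 1 ∧ ∀ x ∈ Z, a x ≤ β := by
  rcases Z.eq_empty_or_nonempty with rfl | hne
  · exact ⟨0, le_rfl, one_pos, by simp⟩
  · obtain ⟨x, hx, hm⟩ := hZ.isCompact.exists_isMaxOn hne ha.continuousOn
    exact ⟨max 0 (a x), le_max_left _ _, max_lt one_pos (h x hx),
      fun y hy => (hm hy).trans (le_max_right _ _)⟩

theorem laplace [μ.IsOpenPosMeasure] {a b ja h r : S → ℝ} (ha : Continuous a) (hb : Continuous b)
    (hja : Continuous ja) (hh : Continuous h) (hr : Continuous r) (ha0 : ∀ x, 0 ≤ a x)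
    (ha1 : ∀ x, a x ≤ 1) (hb0 : ∀ x, 0 ≤ b x) (hb1 : ∀ x, b x ≤ 1) (hr0 : ∀ x, 0 ≤ r x)
    (hpos : ∀ x, b x = 1 → 0 < h x) {x0 : S} (hx0 : b x0 = 1) (hr1 : r x0 ≠ 0)
    (hint : ∀ k : ℕ, ∫ x, a x ^ k * ja x ∂μ = ∫ x, b x ^ k * (h x * r x) ∂μ) : ∃ x, a x = 1 := by
  by_contra hne
  push Not at hne
  obtain ⟨α, hα0, hα1, hα⟩ := exists_lt_one ha isClosed_univ fun x _ => (ha1 x).lt_of_ne (hne x)
  obtain ⟨β1, -, hβ1, hβ⟩ := exists_lt_one hb (isClosed_le hh continuous_const : IsClosed {x | h x ≤ 0})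
    fun x hx => (hb1 x).lt_of_ne fun e => absurd (hpos x e) (not_lt.mpr hx)
  set β := max α β1 with hβd
  have hβ0 : 0 ≤ β := hα0.trans (le_max_left _ _)
  have hβl : β < 1 := max_lt hα1 hβ1
  set β' := (β + 1) / 2 with hβ'
  have hjb : Continuous fun x => h x * r x := hh.mul hr
  obtain ⟨C1, hC1⟩ := isCompact_univ.exists_bound_of_continuousOn hja.continuousOn
  obtain ⟨C2, hC2⟩ := isCompact_univ.exists_bound_of_continuousOn hjb.continuousOn
  set ψ : S → ℝ := fun x => max 0 (b x - β') * (h x * r x) with hψ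
  have hψc : Continuous ψ := (continuous_const.max (hb.sub continuous_const)).mul hjb
  have hgood : ∀ x, β < b x → 0 ≤ h x * r x := fun x hx => mul_nonneg
    (not_le.mp fun e => absurd ((hβ x e).trans (le_max_right α β1)) (not_le.mpr hx)).le (hr0 x)
  have hψ0 : ∀ x, 0 ≤ ψ x := fun x => by
    by_cases hx : b x - β' ≤ 0
    · simp [hψ, max_eq_left hx]
    · exact mul_nonneg (le_max_left _ _) (hgood x (by linarith))
  have hψp : 0 < ∫ x, ψ x ∂μ := by
    refine integral_pos_of_integrable_nonneg_nonzero (x := x0) hψc (integrable_cont μ hψc) hψ0 ?_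
    have := hpos x0 hx0
    exact mul_ne_zero (by rw [hx0]; exact (lt_max_of_lt_right (by linarith)).ne')
      (mul_ne_zero this.ne' hr1)
  have hC20 : 0 ≤ C2 := (norm_nonneg _).trans (hC2 x0 trivial)
  have key : ∀ k : ℕ, β' ^ k * ∫ x, ψ x ∂μ ≤ β ^ k * ((C1 + C2) * μ.real Set.univ) := fun k => by
    have i1 := integrable_cont μ ((ha.pow k).mul hja)
    have i2 := integrable_cont μ ((hb.pow k).mul hjb)
    have e1 : ∫ x, a x ^ k * ja x ∂μ ≤ ∫ _, β ^ k * C1 ∂μ :=
      integral_mono i1 (integrable_const _) fun x => by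
        refine (le_abs_self _).trans ?_
        rw [abs_mul, abs_of_nonneg (pow_nonneg (ha0 x) k)]
        exact mul_le_mul (pow_le_pow_left₀ (ha0 x) ((hα x trivial).trans (le_max_left _ _)) k)
          (hC1 x trivial) (abs_nonneg _) (pow_nonneg hβ0 k)
    have e2 : ∫ x, β' ^ k * ψ x - β ^ k * C2 ∂μ ≤ ∫ x, b x ^ k * (h x * r x) ∂μ :=
      integral_mono (((integrable_cont μ hψc).const_mul _).sub (integrable_const _)) i2 fun x => by
        have p0 : 0 ≤ β ^ k * C2 := mul_nonneg (pow_nonneg hβ0 k) hC20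
        by_cases hx : b x - β' ≤ 0
        · simp only [hψ, max_eq_left hx, zero_mul, mul_zero, zero_sub]
          by_cases hx' : β < b x
          · exact (neg_nonpos.mpr p0).trans (mul_nonneg (pow_nonneg (hb0 x) k) (hgood x hx'))
          · refine neg_le_of_abs_le ?_
            rw [abs_mul, abs_of_nonneg (pow_nonneg (hb0 x) k)]
            exact mul_le_mul (pow_le_pow_left₀ (hb0 x) (not_lt.mp hx') k) (hC2 x trivial)
              (abs_nonneg _) (pow_nonneg hβ0 k)
        · have g := hgood x (by linarith)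
          have p1 : β' ^ k ≤ b x ^ k := pow_le_pow_left₀ (by linarith) (by linarith) k
          have p2 : ψ x ≤ h x * r x :=
            mul_le_of_le_one_left g (max_le zero_le_one (by linarith [hb1 x]))
          have p3 := mul_le_mul p1 p2 (hψ0 x) (pow_nonneg (hb0 x) k)
          simp only
          linarith
    rw [integral_sub ((integrable_cont μ hψc).const_mul _) (integrable_const _),
      integral_const_mul, integral_const, smul_eq_mul] at e2
    rw [integral_const, smul_eq_mul, hint] at e1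
    linarith
  have hβ'0 : 0 < β' := by linarith
  have lim : Tendsto (fun k : ℕ => (β / β') ^ k * ((C1 + C2) * μ.real Set.univ)) atTop (𝓝 0) := by
    simpa using (tendsto_pow_atTop_nhds_zero_of_lt_one (div_nonneg hβ0 hβ'0.le)
      ((div_lt_one hβ'0).mpr (by linarith))).mul_const _
  refine absurd (ge_of_tendsto' lim fun k => ?_) (not_le.mpr hψp)
  rw [div_pow, div_mul_eq_mul_div, le_div_iff₀ (pow_pos hβ'0 k), mul_comm]
  exact key k

variable {B K N : Type} [Group S] [Group B] [Fintype N] [DecidableEq N]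
  {ρ : K → S × B →* unitaryGroup N ℂ} (hρ : ∀ k y, Continuous fun x : S => (ρ k (x, y)).1)
include hρ

omit [CompactSpace S] [MeasurableSpace S] [BorelSpace S] in
theorem PF_cont' (f : PF ρ) (z : S × B) (y : B) : Continuous fun x : S => f.1 (z * (x, y)) :=
  PF_cont ρ (fun k => by
    simp only [map_mul, Submonoid.coe_mul]; exact continuous_const.mul (hρ k y)) f

theorem hasDeriv_int {c : ℝ → S × B} {f f' : PF ρ}
    (h : ∀ z t, HasDerivAt (fun t => f.1 (c t * z)) (f'.1 (c t * z)) t) (y : B) (t : ℝ) :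
    HasDerivAt (fun t => ∫ x, f.1 (c t * (x, y)) ∂μ) (∫ x, f'.1 (c t * (x, y)) ∂μ) t := by
  obtain ⟨C, hC⟩ := PF_bdd ρ f'
  exact (hasDerivAt_integral_of_dominated_loc_of_deriv_le (bound := fun _ => C) univ_mem
    (Eventually.of_forall fun t => (PF_cont' hρ f _ y).aestronglyMeasurable)
    (integrable_cont μ (PF_cont' hρ f _ y)) (F' := fun t x => f'.1 (c t * (x, y)))
    (PF_cont' hρ f' _ y).aestronglyMeasurable (Eventually.of_forall fun x t _ => hC _)
    (integrable_const C) (Eventually.of_forall fun x t _ => h _ t)).2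

/-- Directions along which integrals of derivatives vanish. -/
def Good : Submodule ℂ (K → Matrix N N ℂ) where
  carrier := {ξ | ∃ D : Derivation ℂ (PF ρ) (PF ρ), Acts (gg ρ true) (gg ρ false) D ξ ∧
    ∀ f y, ∫ x, (D f).1 (x, y) ∂μ = 0}
  zero_mem' := ⟨0, Acts.zero, fun f y => by simp⟩
  add_mem' := by
    rintro _ _ ⟨D, h1, h2⟩ ⟨D', h1', h2'⟩
    refine ⟨D + D', h1.add h1', fun f y => ?_⟩
    have := integral_add (integrable_cont μ (PF_cont ρ (hρ · y) (D f)))
      (integrable_cont μ (PF_cont ρ (hρ · y) (D' f)))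
    rw [h2, h2', add_zero] at this
    exact this
  smul_mem' := by
    rintro c _ ⟨D, h1, h2⟩
    refine ⟨c • D, h1.smul c, fun f y => ?_⟩
    have := integral_const_mul (μ := μ) c fun x => (D f).1 (x, y)
    rw [h2, mul_zero] at this
    exact this

theorem good_of_dir [IsTopologicalGroup S] [μ.IsMulLeftInvariant] {c : ℝ → S} (hc0 : c 0 = 1)
    {P : K → Matrix N N ℂ} (hP : ∀ k, IsPr (P k))
    (hc : ∀ k t, (ρ k (c t, 1)).1 = rot (P k) t) : P ∈ Good μ hρ := by
  obtain ⟨D, h1, h2⟩ := exists_der ρ (c := fun t => (c t, 1)) hP hc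
  have : (fun k => Complex.I • P k) ∈ Good μ hρ := ⟨D, h1, fun f y => by
    have h3 := hasDeriv_int μ hρ (h2 f) y 0
    simp only [Prod.mk_mul_mk, one_mul, hc0] at h3
    have h4 : ∀ t, ∫ x, f.1 (c t * x, y) ∂μ = ∫ x, f.1 (x, y) ∂μ := fun t =>
      integral_mul_left_eq_self (fun x => f.1 (x, y)) (c t)
    simp only [h4] at h3
    exact h3.unique (hasDerivAt_const _ _)⟩
  have h5 := (Good μ hρ).smul_mem (-Complex.I) this
  refine (congrArg (· ∈ Good μ hρ) ?_).mp h5
  funext k
  simp [smul_smul]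

end Vale.Agent.P174
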