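import Vale.Agent.P174.Deg
import Vale.Agent.P174.Inv

/-!
# P174: the degree map and the invariance of its integrals
-/

namespace Vale.Agent.P174

open Matrix MeasureTheory

section uni
variable {n : Type} [Fintype n] [DecidableEq n]

theorem rot_mem {P : Matrix n n ℂ} (hP : IsPr P) (t : ℝ) : rot P t ∈ unitaryGroup n ℂ := by
  rw [mem_unitaryGroup_iff, star_rot hP.1, rot]
  have e : Complex.exp (t * Complex.I) * Complex.exp (t * -Complex.I) = 1 := by
    rw [← Complex.exp_add]; simp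
  simp only [mul_add, add_mul, mul_one, one_mul, mul_smul_comm, smul_mul_assoc, hP.2]
  linear_combination (norm := module) e • P

/-- The rotation as a unitary. -/
noncomputable def rotU {P : Matrix n n ℂ} (hP : IsPr P) (t : ℝ) : unitaryGroup n ℂ :=
  ⟨rot P t, rot_mem hP t⟩

theorem rotU_zero {P : Matrix n n ℂ} (hP : IsPr P) : rotU hP 0 = 1 :=
  Subtype.ext (by simp [rotU, rot])

theorem IsPr.zero : IsPr (0 : Matrix n n ℂ) := ⟨by simp, by simp⟩

theorem IsPr.single {K : Type} [DecidableEq K] {P : Matrix n n ℂ} (hP : IsPr P) (k k' : K) :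
    IsPr (Pi.single (M := fun _ => Matrix n n ℂ) k P k') := by
  rw [Pi.single_apply]; split_ifs; exacts [hP, IsPr.zero]

theorem isPr_single (p : n) : IsPr (single p p (1 : ℂ)) :=
  ⟨by simp [star_eq_conjTranspose], by simp⟩

theorem span_pr' {M : Type} [AddCommGroup M] [Module ℂ M] (W : Submodule ℂ M)
    (l : Matrix n n ℂ →ₗ[ℂ] M) (h : ∀ P, IsPr P → l P ∈ W) (A : Matrix n n ℂ) : l A ∈ W :=
  span_pr (W.comap l) h A

/-- Diagonal unitaries. -/
noncomputable def dg : (n → Circle) →* unitaryGroup n ℂ where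
  toFun z := ⟨diagonal fun p => z p, by
    rw [mem_unitaryGroup_iff, star_eq_conjTranspose, diagonal_conjTranspose, diagonal_mul_diagonal]
    simp [Complex.mul_conj]⟩
  map_one' := Subtype.ext (by simp)
  map_mul' z w := Subtype.ext (by simp)

theorem dg_val (z : n → Circle) : (dg z).1 = diagonal fun p => (z p : ℂ) := rfl

theorem dg_single (p : n) (t : ℝ) :
    (dg (Pi.mulSingle p (Circle.exp t))).1 = rot (single p p 1) t := by
  ext r s
  rw [dg_val, rot]
  by_cases h : r = s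
  · subst h
    by_cases h2 : p = r
    · subst h2; simp
    · simp [h2, Ne.symm h2]
  · have : ¬(p = r ∧ p = s) := fun e => h (e.1.symm.trans e.2)
    simp [h, this]

/-- The group generated by rotations. -/
def HH (n : Type) [Fintype n] [DecidableEq n] : Subgroup (unitaryGroup n ℂ) :=
  Subgroup.closure {U | ∃ P t, IsPr P ∧ U.1 = rot P t}

theorem dg_mem (z : n → Circle) : dg z ∈ HH n :=
  Subgroup.pi_mem_of_mulSingle_mem (H := (HH n).comap dg) z fun p => by
    obtain ⟨t, ht⟩ := Circle.exp_surjective (z p)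
    exact Subgroup.subset_closure ⟨_, t, isPr_single p, by rw [← ht, dg_single]⟩

theorem swap_pr {a b : n} (h : a ≠ b) : ∃ P : Matrix n n ℂ, IsPr P ∧ trace P = 1 ∧
    (Equiv.swap a b).permMatrix ℂ = 1 - (2 : ℂ) • P := by
  refine ⟨(2⁻¹ : ℂ) • (single a a 1 + single b b 1 - single a b 1 - single b a 1), ⟨?_, ?_⟩, ?_, ?_⟩
  · simp only [star_smul, star_add, star_sub, star_eq_conjTranspose, conjTranspose_single,
      star_one, star_inv₀, star_ofNat]
    congr 1; abel
  · simp only [smul_mul_assoc, mul_smul_comm, add_mul, mul_add, sub_mul, mul_sub,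
      single_mul_single_same, single_mul_single_of_ne _ _ _ _ h,
      single_mul_single_of_ne _ _ _ _ h.symm, mul_one]
    module
  · simp [h, h.symm]; norm_num
  · ext r s
    simp only [Equiv.Perm.permMatrix, PEquiv.toMatrix_apply, Equiv.toPEquiv_apply, smul_smul,
      Option.mem_def, Option.some.injEq, Matrix.sub_apply, Matrix.smul_apply, Matrix.add_apply,
      single_apply, one_apply, Equiv.swap_apply_def]
    by_cases h1 : r = a
    · subst h1
      simp [h.symm]
    · by_cases h2 : r = b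
      · subst h2
        simp [h, h1]
      · simp [h1, h2, Ne.symm h1, Ne.symm h2]

theorem perm_mem (σ : Equiv.Perm n) : ∃ U ∈ HH n, U.1 = σ.permMatrix ℂ := by
  induction σ using Equiv.Perm.swap_induction_on with
  | one => exact ⟨1, one_mem _, by simp⟩
  | swap_mul f a b hab ih =>
    obtain ⟨U, hU, e⟩ := ih
    obtain ⟨P, hP, -, e'⟩ := swap_pr hab
    refine ⟨U * rotU hP Real.pi, mul_mem hU (Subgroup.subset_closure ⟨P, _, hP, rfl⟩), ?_⟩
    rw [permMatrix_mul, e', ← e, Submonoid.coe_mul]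
    simp only [rotU, rot, Complex.exp_pi_mul_I]
    congr 1
    module

theorem inv_HH {Q : Type} [Fintype Q] [DecidableEq Q] (I : (Q → unitaryGroup n ℂ) → ℂ)
    (h : ∀ k P (hP : IsPr P) t y, I (Pi.mulSingle k (rotU hP t) * y) = I y)
    {y : Q → unitaryGroup n ℂ} (hy : ∀ k, y k ∈ HH n) : I y = I 1 := by
  let H : Subgroup (Q → unitaryGroup n ℂ) :=
    { carrier := {y | ∀ y', I (y * y') = I y'}
      one_mem' := fun y' => by rw [one_mul]
      mul_mem' := fun {a b} ha hb y' => by rw [mul_assoc, ha, hb]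
      inv_mem' := fun {a} ha y' => by rw [← ha, mul_inv_cancel_left] }
  rw [← mul_one y]
  refine Subgroup.pi_mem_of_mulSingle_mem (H := H) y (fun k => ?_) 1
  have hle : HH n ≤ H.comap (MonoidHom.mulSingle (fun _ => unitaryGroup n ℂ) k) := ?_
  · exact hle (hy k)
  refine (Subgroup.closure_le _).mpr ?_
  rintro U ⟨P, t, hP, e⟩ y'
  obtain rfl : U = rotU hP t := Subtype.ext e
  exact h k P hP t y'

end uni

variable {J Φ N' Y : Type} [Fintype Φ] [Fintype N'] [DecidableEq Φ] [DecidableEq N']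

/-- Embedding of the small unitary group. -/
noncomputable def emb (N' : Type) [Fintype N'] [DecidableEq N'] :
    unitaryGroup Φ ℂ →* unitaryGroup (Φ ⊕ N') ℂ where
  toFun u := ⟨fromBlocks u.1 0 0 1, by
    rw [mem_unitaryGroup_iff, star_eq_conjTranspose, fromBlocks_conjTranspose, fromBlocks_multiply,
      ← star_eq_conjTranspose, u.2.2]
    simp⟩
  map_one' := Subtype.ext (by simp)
  map_mul' u v := Subtype.ext (by simp [fromBlocks_multiply])

theorem emb_val (u : unitaryGroup Φ ℂ) : (emb N' u).1 = fromBlocks u.1 0 0 1 := rfl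

/-- Extension by one. -/
noncomputable def ex1 (Φ : Type) : (N' → Circle) →* (Φ ⊕ N' → Circle) where
  toFun z := Sum.elim 1 z
  map_one' := by ext (a | a) <;> rfl
  map_mul' z w := by ext (a | a) <;> simp

/-- The integration variables. -/
abbrev SS (J Φ N' : Type) [Fintype Φ] [Fintype N'] [DecidableEq Φ] [DecidableEq N'] :=
  (J → unitaryGroup Φ ℂ) × (J → unitaryGroup (Φ ⊕ N') ℂ) × (J → N' → Circle)

/-- The matrix variables. -/
noncomputable def rho (Q : Type) :
    Kx J Q → SS J Φ N' × (Q → unitaryGroup (Φ ⊕ N') ℂ) →* unitaryGroup (Φ ⊕ N') ℂ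
  | .u j => (emb N').comp
      ((Pi.evalMonoidHom _ j).comp ((MonoidHom.fst _ _).comp (MonoidHom.fst _ _)))
  | .v j => (Pi.evalMonoidHom _ j).comp
      ((MonoidHom.fst _ _).comp ((MonoidHom.snd _ _).comp (MonoidHom.fst _ _)))
  | .z j => dg.comp ((ex1 Φ).comp ((Pi.evalMonoidHom _ j).comp
      ((MonoidHom.snd _ _).comp ((MonoidHom.snd _ _).comp (MonoidHom.fst _ _)))))
  | .b k => (Pi.evalMonoidHom _ k).comp (MonoidHom.snd _ _)

variable {Q : Type} (x : SS J Φ N' × (Q → unitaryGroup (Φ ⊕ N') ℂ))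

theorem rho_u (j : J) : rho Q (.u j) x = emb N' (x.1.1 j) := rfl
theorem rho_v (j : J) : rho Q (.v j) x = x.1.2.1 j := rfl
theorem rho_z (j : J) : rho Q (.z j) x = dg (Sum.elim 1 (x.1.2.2 j)) := rfl
theorem rho_b (k : Q) : rho Q (.b k) x = x.2 k := rfl

theorem rho_cont (k : Kx J Q) (y : Q → unitaryGroup (Φ ⊕ N') ℂ) :
    Continuous fun x : SS J Φ N' => (rho Q k (x, y)).1 := by
  cases k with
  | u j =>
    simp only [rho_u, emb_val]
    exact Continuous.matrix_fromBlocks (by fun_prop) continuous_const continuous_const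
      continuous_const
  | v j => simp only [rho_v]; fun_prop
  | z j =>
    simp only [rho_z, dg_val]
    refine Continuous.matrix_diagonal (continuous_pi fun p => ?_)
    rcases p with p | p
    · exact continuous_const
    · exact (show Continuous fun z : Circle => (z : ℂ) from continuous_induced_dom).comp
        (f := fun x : SS J Φ N' => x.2.2 j p) (by fun_prop)
  | b k => exact continuous_const (y := (y k).1)

variable [Fintype J] [DecidableEq J] [DecidableEq Q] [MeasurableSpace (SS J Φ N')]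
  [BorelSpace (SS J Φ N')] (μ : Measure (SS J Φ N')) [IsFiniteMeasure μ] [μ.IsMulLeftInvariant]

/-- The good directions. -/
noncomputable def Gd (Q : Type) : Submodule ℂ (Kx J Q → Matrix (Φ ⊕ N') (Φ ⊕ N') ℂ) :=
  Good μ (ρ := rho Q) rho_cont

omit [Fintype J] in
theorem gd_of {c : ℝ → SS J Φ N'} (hc0 : c 0 = 1) {P : Matrix (Φ ⊕ N') (Φ ⊕ N') ℂ} (hP : IsPr P)
    (k0 : Kx J Q) (h0 : ∀ t, (rho Q k0 (c t, 1)).1 = rot P t)
    (h1 : ∀ k t, k ≠ k0 → rho Q k (c t, 1) = 1) : Pi.single k0 P ∈ Gd μ Q :=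
  good_of_dir μ (ρ := rho Q) rho_cont hc0 (hP.single k0) fun k t => by
    by_cases h : k = k0
    · subst h; rw [h0, Pi.single_eq_same]
    · rw [h1 k t h, Pi.single_eq_of_ne h]; simp [rot]

omit [Fintype J] in
theorem gd_u (j : J) (A : Matrix Φ Φ ℂ) : Pi.single (Kx.u j) (fromBlocks A 0 0 0) ∈ Gd μ Q := by
  let l : Matrix Φ Φ ℂ →ₗ[ℂ] (Kx J Q → Matrix (Φ ⊕ N') (Φ ⊕ N') ℂ) :=
    { toFun := fun A => Pi.single (Kx.u j) (fromBlocks A 0 0 0)
      map_add' := fun A B => by simp [← Pi.single_add, fromBlocks_add]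
      map_smul' := fun c A => by simp [← Pi.single_smul, fromBlocks_smul] }
  refine span_pr' (Gd μ Q) l (fun P hP => gd_of μ
    (c := fun t => (Pi.mulSingle j (rotU hP t), 1, 1)) (by simp [rotU_zero])
    (P := fromBlocks P 0 0 0) ⟨?_, ?_⟩ _ (fun t => ?_) fun k t h => ?_) A
  · rw [star_eq_conjTranspose, fromBlocks_conjTranspose, ← star_eq_conjTranspose, hP.1]; simp
  · simp [fromBlocks_multiply, hP.2]
  · ext (r | r) (s | s) <;> simp [rho_u, emb_val, rotU, rot, one_apply]
  · cases k <;> simp_all [rho_u, rho_v, rho_z, rho_b]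

omit [Fintype J] in
theorem gd_v (j : J) (A : Matrix (Φ ⊕ N') (Φ ⊕ N') ℂ) : Pi.single (Kx.v j) A ∈ Gd μ Q := by
  let l : Matrix (Φ ⊕ N') (Φ ⊕ N') ℂ →ₗ[ℂ] (Kx J Q → Matrix (Φ ⊕ N') (Φ ⊕ N') ℂ) :=
    { toFun := fun A => Pi.single (Kx.v j) A
      map_add' := fun A B => by simp [← Pi.single_add]
      map_smul' := fun c A => by simp [← Pi.single_smul] }
  refine span_pr' (Gd μ Q) l (fun P hP => gd_of μ
    (c := fun t => (1, Pi.mulSingle j (rotU hP t), 1)) (by simp [rotU_zero]) hP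
      (Kx.v j) (fun t => by simp [rho_v, rotU]) fun k t h => ?_) A
  cases k <;> simp_all [rho_u, rho_v, rho_z, rho_b]

omit [Fintype J] in
theorem gd_z (j : J) (p : N') : Pi.single (Kx.z j) (single (.inr p) (.inr p) 1) ∈ Gd μ Q := by
  refine gd_of μ (c := fun t => (1, 1, Pi.mulSingle j (Pi.mulSingle p (Circle.exp t))))
    (by simp) (isPr_single _) _ (fun t => ?_) fun k t h => ?_
  · rw [← dg_single, rho_z]
    congr 2
    ext (r | r) <;> simp [Pi.mulSingle_apply]
  · cases k <;> simp_all [rho_u, rho_v, rho_z, rho_b]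

omit [Fintype J] in
theorem dir_good (a : Ix J Φ N') : dir Q a ∈ Gd μ Q := by
  obtain ⟨⟨p, q⟩, j⟩ := a
  unfold dir kind
  split_ifs with h1 h2
  · rcases p with p | p <;> rcases q with q | q <;> simp only [WW, Sum.isLeft] at h1 <;>
      try simp at h1
    refine (congrArg (fun A => Pi.single (Kx.u j) A ∈ Gd μ Q) ?_).mp (gd_u μ j (single p q 1))
    ext (r | r) (s | s) <;> simp [single_apply]
  · simp only at h2
    subst h2
    rcases p with p | p
    · simp [WW] at h1
    exact gd_z μ j p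
  · exact gd_v μ j _

/-- The word defining the degree map. -/
def wd {Γ : Type} [Group Γ] (L : J → List (Y × J × Bool)) (f : Kx J (J ⊕ Y) → Γ) (j : J) : Γ :=
  f (.b (.inl j)) * ((L j).map fun t => f (.b (.inr t.1)) *
    cond t.2.2 (f (.u t.2.1)) (f (.u t.2.1))⁻¹ * (f (.b (.inr t.1)))⁻¹).prod

section word
omit [Fintype J] [DecidableEq J]
variable {Γ Γ' : Type} [Group Γ] [Group Γ'] (L : J → List (Y × J × Bool)) (f : Kx J (J ⊕ Y) → Γ)

theorem map_wd (h : Γ →* Γ') (j : J) : h (wd L f j) = wd L (fun k => h (f k)) j := by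
  simp only [wd, map_mul, map_list_prod, List.map_map]
  congr 3
  funext t
  cases h : t.2.2 <;> simp [h]

theorem wd_one {d : ℕ} {j : J} (hL : FreeGroup.mk ((L j).map Prod.snd) = FreeGroup.of j ^ d)
    (hf : ∀ p, f (.b (.inr p)) = 1) : wd L f j = f (.b (.inl j)) * f (.u j) ^ d := by
  have := congrArg (FreeGroup.lift fun i => f (.u i)) hL
  rw [map_pow, FreeGroup.lift_apply_of, FreeGroup.lift_mk, List.map_map] at this
  simp only [wd, hf, one_mul, inv_one, mul_one, ← this]
  rfl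

end word

/-- The generic matrices as units. -/
noncomputable def gu {T K N : Type} [Group T] [Fintype N] [DecidableEq N]
    (ρ : K → T →* unitaryGroup N ℂ) (k : K) : (Matrix N N (PF ρ))ˣ :=
  ⟨gg ρ true k, gg ρ false k, gg_mul ρ k, gg_mul' ρ k⟩

variable (Φ N') in
/-- The algebraic data. -/
noncomputable def frm (L : J → List (Y × J × Bool)) :
    Frm (PF (rho (J := J) (Φ := Φ) (N' := N') (J ⊕ Y))) J Φ N' (J ⊕ Y) where
  g := gg _ true
  g' := gg _ false
  hg := gg_mul _
  hg' := gg_mul' _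
  δ j p := gg _ true (.z j) p p
  δ' j p := gg _ false (.z j) p p
  hδ j := mat_ext _ fun x => by
    have := at'_gg_true (rho (J ⊕ Y)) (.z j) x
    rw [this]
    ext p q
    have := congrFun (congrFun this p) p
    by_cases h : p = q <;> simp_all [rho_z, dg_val]
  hδ' j := mat_ext _ fun x => by
    have := at'_gg_false (rho (J ⊕ Y)) (.z j) x
    rw [this]
    ext p q
    have := congrFun (congrFun this p) p
    by_cases h : p = q
    · simp_all [rho_z, dg_val]
    · simp [rho_z, dg_val, h, Ne.symm h]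
  δ1 j a := by
    ext x
    simpa [rho_z, dg_val, at'_apply] using
      congrFun (congrFun (at'_gg_true (rho (J ⊕ Y)) (.z j) x) (.inl a)) (.inl a)
  δ1' j a := by
    ext x
    simpa [rho_z, dg_val, at'_apply] using
      congrFun (congrFun (at'_gg_false (rho (J ⊕ Y)) (.z j) x) (.inl a)) (.inl a)
  Ψ := wd L (gu _)
  hΨ D ξ h hu hb j := by
    have hm : ∀ A B : (Matrix (Φ ⊕ N') (Φ ⊕ N') (PF (rho (J ⊕ Y))))ˣ, dm D A.1 = 0 →
        dm D B.1 = 0 → dm D (A * B).1 = 0 := fun A B hA hB => by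
      rw [Units.val_mul, dm_mul, hA, hB, zero_mul, mul_zero, add_zero]
    have h1 : ∀ k, ξ k = 0 → dm D (gu _ k).1 = 0 := fun k e => by
      have := (h k).1
      rwa [e, map_zero, zero_mul] at this
    have h2 : ∀ k, ξ k = 0 → dm D (gu _ k)⁻¹.1 = 0 := fun k e => by
      have := (h k).2
      rwa [e, map_zero, mul_zero, neg_zero] at this
    refine hm _ _ (h1 _ (hb _)) (List.prod_induction (fun A : _ˣ => dm D A.1 = 0) hm (dm_one D)
      fun A hA => ?_)
    obtain ⟨t, -, rfl⟩ := List.mem_map.mp hA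
    refine hm _ _ (hm _ _ (h1 _ (hb _)) ?_) (h2 _ (hb _))
    cases t.2.2
    exacts [h2 _ (hu _), h1 _ (hu _)]

omit [Fintype J] [MeasurableSpace (SS J Φ N')] [BorelSpace (SS J Φ N')] in
theorem rho_dir_b {P : Matrix (Φ ⊕ N') (Φ ⊕ N') ℂ} (hP : IsPr P) (k : Q) (k' : Kx J Q) (t : ℝ) :
    (rho Q k' ((1 : SS J Φ N'), Pi.mulSingle k (rotU hP t))).1 =
      rot (Pi.single (M := fun _ => Matrix (Φ ⊕ N') (Φ ⊕ N') ℂ) (Kx.b k : Kx J Q) P k') t := by
  cases k' <;> simp [rho_u, rho_v, rho_z, rho_b, rot, Pi.mulSingle_apply, Pi.single_apply]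
  split_ifs <;> simp [rotU, rot]

omit [μ.IsMulLeftInvariant] in
theorem int_rot (F : Frm (PF (rho (J := J) (Φ := Φ) (N' := N') Q)) J Φ N' Q)
    (hg : F.g = gg _ true) (hg' : F.g' = gg _ false) {X : Ix J Φ N' → Derivation ℂ _ _}
    (hX : ∀ a, Acts (gg (rho Q) true) (gg _ false) (X a) (dir Q a) ∧
      ∀ f y, ∫ x, (X a f).1 (x, y) ∂μ = 0) (m : ℕ) (k : Q) (P : Matrix (Φ ⊕ N') (Φ ⊕ N') ℂ)
    (hP : IsPr P) (t : ℝ) (y : Q → unitaryGroup (Φ ⊕ N') ℂ) :
    ∫ x, (F.φ ^ m * (F.jm X).det).1 (x, Pi.mulSingle k (rotU hP t) * y) ∂μ =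
      ∫ x, (F.φ ^ m * (F.jm X).det).1 (x, y) ∂μ := by
  obtain ⟨D, h1, h2⟩ := exists_der (rho (J := J) Q)
    (c := fun t => (1, Pi.mulSingle k (rotU hP t))) (hP.single (Kx.b k)) (rho_dir_b hP k)
  have h3 : (fun k' => Complex.I • Pi.single (M := fun _ => Matrix (Φ ⊕ N') (Φ ⊕ N') ℂ)
      (Kx.b k : Kx J Q) P k') = Pi.single (Kx.b k) (Complex.I • P) := by
    rw [Pi.single_smul]; rfl
  rw [h3, ← hg, ← hg'] at h1
  obtain ⟨w, hw⟩ := Frm.closed (F := F) (fun a => by rw [hg, hg']; exact (hX a).1) h1 m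
  generalize F.φ ^ m * (F.jm X).det = f at hw ⊢
  have h4 : ∀ t, HasDerivAt (fun t => ∫ x, f.1 (x, Pi.mulSingle k (rotU hP t) * y) ∂μ) 0 t :=
    fun t => by
      have := hasDeriv_int μ (ρ := rho Q) rho_cont (h2 f) y t
      simp only [Prod.mk_mul_mk, one_mul] at this
      refine this.congr_deriv ?_
      rw [hw]
      simp only [NegMemClass.coe_neg, AddSubmonoidClass.coe_finsetSum, Pi.neg_apply,
        Finset.sum_apply, integral_neg]
      rw [integral_finsetSum _ fun a _ => integrable_cont μ (PF_cont _ (rho_cont · _) _)]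
      simp [(hX _).2]
  have := is_const_of_deriv_eq_zero (fun t => (h4 t).differentiableAt) (fun t => (h4 t).deriv) t 0
  simpa [rotU_zero] using this

end Vale.Agent.P174
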