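import Vale.Agent.P174.DegB

/-!
# P174: the degree map hits the identity
-/

namespace Vale.Agent.P174

open Matrix MeasureTheory Finset
open scoped Kronecker ComplexOrder

section uni
variable {J n : Type} [Fintype J] [Fintype n] [DecidableEq n]

theorem abs_re_trace (U : unitaryGroup n ℂ) : |(trace U.1).re| ≤ Fintype.card n := by
  rw [trace, Complex.re_sum]
  refine (abs_sum_le_sum_abs _ _).trans ?_
  refine (sum_le_card_nsmul _ _ 1 fun p _ => ?_).trans (by simp)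
  exact (Complex.abs_re_le_norm _).trans (entry_norm_bound_of_unitary U.2 p p)

theorem eq_one_of_trace (U : unitaryGroup n ℂ) (h : (trace U.1).re = Fintype.card n) : U = 1 := by
  refine Subtype.ext (sub_eq_zero.mp (trace_conjTranspose_mul_self_eq_zero_iff.mp ?_))
  have e : U.1ᴴ * U.1 = 1 := U.2.1
  simp only [conjTranspose_sub, sub_mul, mul_sub, e, OneMemClass.coe_one, conjTranspose_one,
    mul_one, one_mul, trace_sub, trace_conjTranspose, trace_one]
  refine Complex.ext ?_ ?_ <;> simp [h]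

/-- The peak function. -/
noncomputable def phi (U : J → unitaryGroup n ℂ) : ℝ :=
  (4 * (Fintype.card J * Fintype.card n : ℝ) + 1)⁻¹ *
    (2 * (Fintype.card J * Fintype.card n) + 1 + ∑ j, 2 * (trace (U j).1).re)

theorem phi_nonneg (U : J → unitaryGroup n ℂ) : 0 ≤ phi U := by
  refine mul_nonneg (by positivity) ?_
  have := sum_le_sum (s := univ) fun j _ => neg_le_of_abs_le (abs_re_trace (U j))
  simp only [← mul_sum, sum_const, card_univ, nsmul_eq_mul] at this ⊢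
  linarith

theorem phi_le (U : J → unitaryGroup n ℂ) : phi U ≤ 1 := by
  rw [phi, inv_mul_le_iff₀ (by positivity)]
  have := sum_le_sum (s := univ) fun j _ => le_of_abs_le (abs_re_trace (U j))
  simp only [← mul_sum, sum_const, card_univ, nsmul_eq_mul] at this ⊢
  linarith

theorem phi_eq_one {U : J → unitaryGroup n ℂ} : phi U = 1 ↔ ∀ j, U j = 1 := by
  rw [phi, inv_mul_eq_iff_eq_mul₀ (by positivity)]
  refine ⟨fun h j => eq_one_of_trace _ ?_, fun h => ?_⟩
  · refine (sum_eq_sum_iff_of_le (s := univ)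
      fun j _ => le_of_abs_le (abs_re_trace (U j))).mp ?_ j (mem_univ j)
    simp only [← mul_sum, sum_const, card_univ, nsmul_eq_mul] at h ⊢
    linarith
  · simp [h]; ring

variable {R : Type} [CommRing R] [Algebra ℂ R] (e : R →ₐ[ℂ] ℂ) (D : Derivation ℂ R R)

/-- First order jets. -/
noncomputable def jet : Matrix n n R →* Matrix (n ⊕ n) (n ⊕ n) ℂ where
  toFun M := fromBlocks (e.mapMatrix M) (e.mapMatrix (dm D M)) 0 (e.mapMatrix M)
  map_one' := by rw [dm_one, map_zero, map_one, fromBlocks_one]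
  map_mul' M M' := by
    simp only [fromBlocks_multiply, dm_mul, map_add, map_mul, Matrix.mul_zero, Matrix.zero_mul,
      add_zero, zero_add, add_comm]

theorem map_cst (A : Matrix n n ℂ) : e.mapMatrix (cst R A) = A := by
  ext p q; simp [cst_apply]

/-- Geometric sums. -/
noncomputable def sg (d : ℕ) (r : ℂ) : ℂ := ∑ k ∈ range d, r ^ (k + 1)

theorem dm_pow {g : Matrix n n R} {l : n → ℂ} {ξ : Matrix n n ℂ} (hg : e.mapMatrix g = diagonal l)
    (hl : ∀ r, star (l r) * l r = 1) (hD : dm D g = cst R ξ * g) (d : ℕ) (r s : n) :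
    e.mapMatrix (dm D (g ^ d)) r s = l r ^ d * (ξ r s * sg d (star (l r) * l s)) := by
  induction d with
  | zero => simp [dm_one, sg]
  | succ d ih =>
    have : sg (d + 1) (star (l r) * l s) = (sg d (star (l r) * l s) + 1) * (star (l r) * l s) := by
      simp only [sg, sum_range_succ', add_mul, sum_mul, ← pow_succ, zero_add, pow_one, one_mul]
    rw [pow_succ, dm_mul, hD, map_add, map_mul, map_mul, map_mul, map_pow, hg, map_cst,
      Matrix.add_apply, mul_diagonal, ih, diagonal_pow, diagonal_mul, mul_diagonal, this,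
      Pi.pow_apply]
    linear_combination (-l r ^ d * ξ r s * (sg d (star (l r) * l s) + 1) * l s) * hl r

end uni

theorem sg_ne {d : ℕ} {r : ℂ} (h0 : r ≠ 0) (h : r ^ d ≠ 1) : sg d r ≠ 0 := fun e => by
  have := geom_sum_mul r d
  simp only [sg, pow_succ, ← sum_mul, mul_eq_zero, h0, or_false] at e
  rw [e, zero_mul] at this
  exact h (sub_eq_zero.mp this.symm)

variable {J Φ N' Y : Type} [Fintype Φ] [Fintype N'] [DecidableEq Φ] [DecidableEq N']

theorem end_struct {β : Φ ⊕ N' → Circle} (hβ : Function.Injective β) (hβ1 : ∀ p, β p ≠ 1) {d : ℕ}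
    {u : unitaryGroup Φ ℂ} {V : unitaryGroup (Φ ⊕ N') ℂ} {z : N' → Circle}
    (h : dg β * emb N' u ^ d * (V⁻¹ * (dg (Sum.elim 1 z) * V)) = 1) :
    V.1.toBlocks₁₁ * (star V.1).toBlocks₁₁ = 1 ∧ ∃ l : Φ → ℂ, u.1 = diagonal l ∧
      ∀ p, star (l p) * l p = 1 ∧ β (.inl p) * l p ^ d = 1 := by
  have h1 : dg β * emb N' (u ^ d) * V⁻¹ * dg (Sum.elim 1 z) = V⁻¹ := by
    rw [map_pow, ← mul_left_inj V, inv_mul_cancel, ← h]; simp only [mul_assoc]
  have h2 : diagonal (fun p => (β p : ℂ)) * fromBlocks (u.1 ^ d) 0 0 1 * star V.1 *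
    diagonal (fun p => ((Sum.elim 1 z p : Circle) : ℂ)) = star V.1 := congrArg Subtype.val h1
  have h3 : V.1 * star V.1 = 1 := V.2.2
  have e : ∀ f : Φ ⊕ N' → ℂ, diagonal f =
      fromBlocks (diagonal fun p => f (.inl p)) 0 0 (diagonal fun p => f (.inr p)) := fun f => by
    rw [fromBlocks_diagonal]; congr 1; ext (p | p) <;> rfl
  rw [← fromBlocks_toBlocks (star V.1), e, e fun p => ((Sum.elim 1 z p : Circle) : ℂ)] at h2
  rw [← fromBlocks_toBlocks (star V.1), ← fromBlocks_one] at h3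
  nth_rewrite 1 [← fromBlocks_toBlocks V.1] at h3
  simp only [fromBlocks_multiply, fromBlocks_inj, Matrix.mul_zero, Matrix.zero_mul, add_zero,
    zero_add, Matrix.mul_one, Sum.elim_inl, Pi.one_apply, Circle.coe_one, diagonal_one] at h2 h3
  have h4 : (star V.1).toBlocks₂₁ = 0 := by
    ext p q
    have := congrFun (congrFun h2.2.2.1 p) q
    rw [diagonal_mul] at this
    by_contra hne
    exact hβ1 _ (Circle.coe_eq_one.mp (mul_eq_right₀ hne |>.mp this))
  have h5 := h3.1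
  rw [h4, Matrix.mul_zero, add_zero] at h5
  have h6 : diagonal (fun p => (β (.inl p) : ℂ)) * u.1 ^ d = 1 := by
    have := congrArg (· * V.1.toBlocks₁₁) h2.1
    simpa only [mul_assoc _ (star V.1).toBlocks₁₁, mul_eq_one_comm.mp h5, mul_one] using this
  have h7 : u.1 * diagonal (fun p => (β (.inl p) : ℂ)) =
      diagonal (fun p => (β (.inl p) : ℂ)) * u.1 := by
    rw [← one_mul (u.1 * _), ← h6, mul_assoc, ← mul_assoc (u.1 ^ d), ← pow_succ, pow_succ',
      mul_assoc, mul_eq_one_comm.mp h6, mul_one]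
  have h8 : u.1 = diagonal fun p => u.1 p p := by
    ext p q
    by_cases hpq : p = q
    · simp [hpq]
    · have := congrFun (congrFun h7 p) q
      rw [mul_diagonal, diagonal_mul, mul_comm] at this
      rw [diagonal_apply_ne _ hpq]
      by_contra hne
      exact hpq (Sum.inl.inj (hβ (Circle.ext (mul_right_cancel₀ hne this)))).symm
  refine ⟨h5, _, h8, fun p => ⟨?_, ?_⟩⟩
  · have h9 : star u.1 * u.1 = 1 := u.2.1
    rw [h8] at h9
    simpa [star_eq_conjTranspose] using congrFun (congrFun h9 p) p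
  · rw [h8, diagonal_pow] at h6
    simpa using congrFun (congrFun h6 p) p

variable (L : J → List (Y × J × Bool)) (x : SS J Φ N' × (J ⊕ Y → unitaryGroup (Φ ⊕ N') ℂ))

/-- The value of the degree map. -/
noncomputable def Gu (j : J) : unitaryGroup (Φ ⊕ N') ℂ :=
  wd L (fun k => rho _ k x) j * ((rho _ (.v j) x)⁻¹ * (rho _ (.z j) x * rho _ (.v j) x))

theorem at_Ψ (j : J) :
    (at' _ x).mapMatrix ((frm Φ N' L).Ψ j).1 = (wd L (fun k => rho _ k x) j).1 ∧
    (at' _ x).mapMatrix ((frm Φ N' L).Ψ j)⁻¹.1 = star (wd L (fun k => rho _ k x) j).1 := by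
  have h1 := map_wd L (gu (rho (J ⊕ Y)))
    (Units.map (at' (rho (J ⊕ Y)) x).mapMatrix.toRingHom.toMonoidHom) j
  have h2 := map_wd L (fun k => rho _ k x) Unitary.toUnits j
  have h3 : (fun k => Units.map (at' (rho (J ⊕ Y)) x).mapMatrix.toRingHom.toMonoidHom
      (gu (rho (J ⊕ Y)) k)) = fun k => Unitary.toUnits (rho _ k x) :=
    funext fun k => Units.ext (at'_gg_true _ k x)
  rw [h3, ← h2] at h1
  exact ⟨congrArg Units.val h1, congrArg Units.inv h1⟩

theorem at_G (j : J) : (at' _ x).mapMatrix ((frm Φ N' L).G j) = (Gu L x j).1 ∧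
    (at' _ x).mapMatrix ((frm Φ N' L).G' j) = star (Gu L x j).1 := by
  have h := at_Ψ L x j
  simp only [Frm.G, Frm.G', map_mul, h.1, h.2, Gu]
  simp only [frm, at'_gg_true, at'_gg_false, Submonoid.coe_mul, star_mul, mul_assoc,
    ← Unitary.star_eq_inv, Unitary.coe_star, star_star, and_self]

variable [Fintype J]

theorem at_φ : at' _ x (frm Φ N' L).φ = phi (Gu L x) := by
  have h := at_G L x
  have e : ∀ M : Matrix (Φ ⊕ N') (Φ ⊕ N') _, at' (rho (J ⊕ Y)) x (trace M) =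
      trace ((at' (rho (J ⊕ Y)) x).mapMatrix M) := fun M => by simp [trace]
  simp only [Frm.φ, map_smul, map_add, map_sum, map_mul, map_natCast, map_ofNat, map_one, e,
    (h _).1, (h _).2, phi, star_eq_conjTranspose, trace_conjTranspose, Complex.star_def,
    Complex.add_conj, smul_eq_mul]
  push_cast
  rfl

variable [DecidableEq J]

theorem at_pi : ∃ r : ℝ, 0 ≤ r ∧
    at' _ x (∏ a : Ix J Φ N' with ¬WW a.1.1 a.1.2, (frm Φ N' L).pi a) = r ∧
    ((∀ j, Function.Injective (x.1.2.2 j) ∧ ∀ p, x.1.2.2 j p ≠ 1) → r ≠ 0) := by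
  have e : ∀ a : Ix J Φ N', at' _ x ((frm Φ N' L).pi a) = if a.1.1 = a.1.2 then 1 else
      1 - star ((Sum.elim 1 (x.1.2.2 a.2) a.1.1 : Circle) : ℂ) *
        (Sum.elim 1 (x.1.2.2 a.2) a.1.2 : Circle) := fun a => by
    have h1 := congrFun (congrFun (at'_gg_false (rho (J ⊕ Y)) (.z a.2) x) a.1.1) a.1.1
    have h2 := congrFun (congrFun (at'_gg_true (rho (J ⊕ Y)) (.z a.2) x) a.1.2) a.1.2
    rw [Frm.pi]
    split_ifs
    · exact map_one _
    · simp_all [frm, rho_z, dg_val]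
  simp only [map_prod, e]
  obtain ⟨r, h0, hr⟩ := prod_invol (univ.filter fun a : Ix J Φ N' => ¬WW a.1.1 a.1.2)
    (fun a => (a.1.swap, a.2)) (by simp [WW]) (by simp) (fun a => if a.1.1 = a.1.2 then 1 else
      1 - star ((Sum.elim 1 (x.1.2.2 a.2) a.1.1 : Circle) : ℂ) *
        (Sum.elim 1 (x.1.2.2 a.2) a.1.2 : Circle))
    (fun a _ => by
      simp only [Prod.fst_swap, Prod.snd_swap, eq_comm (a := a.1.2)]
      split_ifs <;> simp [mul_comm])
    fun a _ h => by rw [if_pos (show a.1.1 = a.1.2 from congrArg (·.1.2) h)]; simp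
  refine ⟨r, h0, hr, fun h h1 => ?_⟩
  rw [h1, Complex.ofReal_zero, prod_eq_zero_iff] at hr
  obtain ⟨⟨⟨p, q⟩, j⟩, ha, hr⟩ := hr
  split_ifs at hr with hpq
  · exact one_ne_zero hr
  rw [Complex.star_def, ← Circle.coe_inv_eq_conj, ← Circle.coe_mul, sub_eq_zero, eq_comm,
    Circle.coe_eq_one, inv_mul_eq_one] at hr
  rcases p with p | p <;> rcases q with q | q
  · simp [WW] at ha
  · exact (h j).2 q hr.symm
  · exact (h j).2 p hr
  · exact hpq (congrArg Sum.inr ((h j).1 hr))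

omit [Fintype J] [DecidableEq J] in
theorem jet_wd {R n : Type} [CommRing R] [Algebra ℂ R] [Fintype n] [DecidableEq n] (e : R →ₐ[ℂ] ℂ)
    (D : Derivation ℂ R R) (f : Kx J (J ⊕ Y) → (Matrix n n R)ˣ) {d : ℕ} {i : J}
    (hL : FreeGroup.mk ((L i).map Prod.snd) = FreeGroup.of i ^ d)
    (h1 : ∀ p, e.mapMatrix (f (.b (.inr p))).1 = 1) (h2 : ∀ k, dm D (f (.b k)).1 = 0) :
    e.mapMatrix (dm D (wd L f i).1) =
      e.mapMatrix (f (.b (.inl i))).1 * e.mapMatrix (dm D ((f (.u i)).1 ^ d)) := by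
  have h := map_wd L f (Units.map (jet e D)) i
  rw [wd_one L (fun k => Units.map _ (f k)) hL fun t => Units.ext ?_, ← map_pow, ← map_mul] at h
  · have h3 : e.mapMatrix (dm D (wd L f i).1) = e.mapMatrix (dm D (f (.b (.inl i)) * f (.u i) ^ d).1)
      := congrArg (fun A : (Matrix (n ⊕ n) (n ⊕ n) ℂ)ˣ => toBlocks₁₂ A.1) h
    rw [h3, Units.val_mul, dm_mul, h2, zero_mul, zero_add, map_mul, Units.val_pow_eq_pow_val]
  · show fromBlocks (e.mapMatrix _) (e.mapMatrix (dm D _)) 0 (e.mapMatrix _) = _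
    rw [h1, h2]; simp

omit [Fintype J] [DecidableEq J] in
theorem at_dΨ {d : ℕ} {i : J} (hL : FreeGroup.mk ((L i).map Prod.snd) = FreeGroup.of i ^ d)
    (hx : ∀ p, x.2 (.inr p) = 1) {D : Derivation ℂ _ _} {ξ : Kx J (J ⊕ Y) → _}
    (hD : Acts (gg (rho (J ⊕ Y)) true) (gg _ false) D ξ) (hξ : ∀ k, ξ (.b k) = 0) :
    (at' _ x).mapMatrix (dm D ((frm Φ N' L).Ψ i).1) =
      (x.2 (.inl i)).1 * (at' _ x).mapMatrix (dm D (gg _ true (Kx.u i) ^ d)) := by
  have := jet_wd L (at' _ x) D (gu (rho (J ⊕ Y))) hL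
    (fun p => (at'_gg_true _ _ x).trans (congrArg Subtype.val (hx p)))
    fun k => (hD _).1.trans (by rw [hξ, map_zero, zero_mul])
  rw [← rho_b x (.inl i), ← at'_gg_true]
  exact this

omit [Fintype J] [DecidableEq J] in
theorem at_dlog {d : ℕ} {i : J} (hL : FreeGroup.mk ((L i).map Prod.snd) = FreeGroup.of i ^ d)
    (hx : ∀ p, x.2 (.inr p) = 1) {l : Φ → ℂ} (hl : (x.1.1 i).1 = diagonal l)
    (hl1 : ∀ p, star (l p) * l p = 1) {D : Derivation ℂ _ _} {ξ : Kx J (J ⊕ Y) → _}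
    (hD : Acts (gg (rho (J ⊕ Y)) true) (gg _ false) D ξ) (hξ : ∀ k, ξ (.b k) = 0) (r s : Φ ⊕ N') :
    (at' _ x).mapMatrix (((frm Φ N' L).Ψ i)⁻¹.1 * dm D ((frm Φ N' L).Ψ i).1) r s =
      ξ (.u i) r s * sg d (star (Sum.elim l (1 : N' → ℂ) r) * Sum.elim l (1 : N' → ℂ) s) := by
  have hu : (at' _ x).mapMatrix (gg (rho (J ⊕ Y)) true (.u i)) = diagonal (Sum.elim l 1) := by
    rw [at'_gg_true, rho_u, emb_val, hl, ← fromBlocks_diagonal]; rfl
  have hl2 : ∀ r, star (Sum.elim l (1 : N' → ℂ) r) * Sum.elim l (1 : N' → ℂ) r = 1 := by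
    rintro (r | r); exacts [hl1 r, by simp]
  rw [map_mul, at_dΨ L x hL hx hD hξ, (at_Ψ L x i).2, wd_one L _ hL hx, Submonoid.coe_mul, star_mul,
    mul_assoc, rho_b, ← mul_assoc (star _) (x.2 _).1, (x.2 _).2.1, one_mul,
    SubmonoidClass.coe_pow, ← at'_gg_true, hu, diagonal_pow, star_eq_conjTranspose,
    diagonal_conjTranspose, diagonal_mul, dm_pow _ _ hu hl2 (hD _).1, ← mul_assoc, Pi.star_apply,
    Pi.pow_apply, star_pow, ← mul_pow, hl2, one_pow, one_mul]

variable [DecidableEq Y]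

theorem at_hm {d : ℕ} (hL : ∀ j, FreeGroup.mk ((L j).map Prod.snd) = FreeGroup.of j ^ d)
    (hx : ∀ p, x.2 (.inr p) = 1) {l : J → Φ → ℂ} (hl : ∀ j, (x.1.1 j).1 = diagonal (l j))
    (hl1 : ∀ j p, star (l j p) * l j p = 1) {X : Ix J Φ N' → Derivation ℂ _ _}
    (hX : ∀ a, Acts (gg (rho (J ⊕ Y)) true) (gg _ false) (X a) (dir (J ⊕ Y) a)) :
    (at' _ x).mapMatrix ((frm Φ N' L).hm X) =
      diagonal (fun a => sg d (star (l a.2 a.1.1) * l a.2 a.1.2)) * blockDiagonal fun j =>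
        (x.1.2.1 j).1.toBlocks₁₁ᵀ ⊗ₖ (star (x.1.2.1 j).1).toBlocks₁₁ := by
  ext ⟨⟨p, q⟩, j⟩ ⟨⟨r, s⟩, i⟩
  have h3 : (at' _ x).mapMatrix (((frm Φ N' L).Ψ i)⁻¹.1 *
      dm (X ((.inl p, .inl q), j)) ((frm Φ N' L).Ψ i).1) =
      sg d (star (l i p) * l i q) • dir (J ⊕ Y) ((.inl p, .inl q), j) (.u i) := by
    ext r s
    rw [at_dlog L x (hL i) hx (hl i) (hl1 i) (hX _) (dir_b _), Matrix.smul_apply, dir_apply]
    split_ifs with h
    · obtain ⟨-, rfl, rfl⟩ := h; simp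
    · simp
  have h4 : ∀ M, (at' _ x).mapMatrix (gg (rho (J ⊕ Y)) true (.v i) * M * gg _ false (.v i)) =
      (x.1.2.1 i).1 * (at' _ x).mapMatrix M * star (x.1.2.1 i).1 := fun M => by
    rw [map_mul, map_mul, at'_gg_true, at'_gg_false, rho_v]
  refine Eq.trans (congrFun (congrFun (h4 _) (.inl r)) (.inl s)) ?_
  rw [h3, diagonal_mul, blockDiagonal_apply, dir, kind, if_pos ⟨rfl, rfl⟩, Pi.single_apply]
  by_cases hij : j = i
  · subst hij
    simp [toBlocks₁₁, mul_apply, single_apply, ite_and]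
    ring
  · simp [hij, Ne.symm hij]

omit [DecidableEq J] [DecidableEq Y] in
theorem prod_sg_pos {d : ℕ} (hd : d ≠ 0) {β : Φ → ℂ} (hβ : Function.Injective β) {l : J → Φ → ℂ}
    (hl : ∀ j p, star (l j p) * l j p = 1 ∧ β p * l j p ^ d = 1) :
    0 < (∏ a : (Φ × Φ) × J, sg d (star (l a.2 a.1.1) * l a.2 a.1.2)).re := by
  classical
  have h1 : sg d 1 = (d : ℝ) := by simp [sg]
  obtain ⟨r, h0, hr⟩ := prod_invol univ (fun a : (Φ × Φ) × J => (a.1.swap, a.2)) (by simp)
    (by simp) (fun a => sg d (star (l a.2 a.1.1) * l a.2 a.1.2))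
    (fun a _ => by simp [sg, mul_comm]) fun a _ h => by
      rw [show a.1.1 = a.1.2 from congrArg (·.1.2) h, (hl _ _).1, h1]; simp
  rw [hr, Complex.ofReal_re]
  refine h0.lt_of_ne fun e => ?_
  rw [← e, Complex.ofReal_zero, prod_eq_zero_iff] at hr
  obtain ⟨⟨⟨p, q⟩, j⟩, -, hr⟩ := hr
  by_cases h : p = q
  · subst h
    rw [(hl _ _).1, h1] at hr
    exact hd (by exact_mod_cast hr)
  · refine sg_ne (mul_ne_zero (left_ne_zero_of_mul_eq_one (hl j p).1)
      (right_ne_zero_of_mul_eq_one (hl j q).1)) (fun e => h (hβ ?_)) hr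
    have e2 := congrArg (· ^ d) (hl j p).1
    simp only [mul_pow, one_pow] at e e2
    linear_combination (-β p) * (hl j q).2 + β q * (hl j p).2 -
      β p * β q * l j q ^ d * e2 + β p * β q * l j p ^ d * e

omit x in
theorem exists_Gu [Fintype Y] {d : ℕ} (hd : d ≠ 0)
    (hL : ∀ j, FreeGroup.mk ((L j).map Prod.snd) = FreeGroup.of j ^ d)
    (y : J ⊕ Y → unitaryGroup (Φ ⊕ N') ℂ) (hy : ∀ k, y k ∈ HH _) :
    ∃ x : SS J Φ N', ∀ j, Gu L (x, y) j = 1 := by
  let : MeasurableSpace (SS J Φ N') := borel _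
  have : BorelSpace (SS J Φ N') := ⟨rfl⟩
  let μ : Measure (SS J Φ N') := Measure.haar
  choose X hX using fun a : Ix J Φ N' => dir_good μ (Q := J ⊕ Y) a
  let θ : Φ ⊕ N' → ℝ := fun p => ((Fintype.equivFin _ p : ℕ) + 1 : ℝ)⁻¹
  have hθ : ∀ p, θ p ∈ Set.Icc (0 : ℝ) 1 := fun p =>
    ⟨by positivity, inv_le_one_of_one_le₀ (by simp)⟩
  have hinj := Circle.exp_injOn_Icc (a := 0) (b := 1) (by linarith [Real.two_le_pi])
  have hβ : Function.Injective fun p => Circle.exp (θ p) := fun p q h => by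
    simpa [θ, Fin.val_inj] using hinj (hθ p) (hθ q) h
  have hβ1 : ∀ p, Circle.exp (θ p) ≠ 1 := fun p h =>
    (show θ p ≠ 0 by positivity) (hinj (hθ p) (by simp) (h.trans Circle.exp_zero.symm))
  let y0 : J ⊕ Y → unitaryGroup (Φ ⊕ N') ℂ := Sum.elim (fun _ => dg fun p => Circle.exp (θ p)) 1
  have hy0 : ∀ k, y0 k ∈ HH _ := by
    rintro (k | k); exacts [dg_mem _, one_mem _]
  set F := frm Φ N' L with hF
  have hc : ∀ (f : PF (rho (J ⊕ Y))) y, Continuous fun x : SS J Φ N' => f.1 (x, y) :=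
    fun f y => PF_cont _ (rho_cont · y) f
  have hc' : ∀ (f : PF (rho (J ⊕ Y))) y, Continuous fun x : SS J Φ N' => (at' _ (x, y) f).re :=
    fun f y => Complex.continuous_re.comp (hc f y)
  have hφ : ∀ x, (at' _ x F.φ).re = phi (Gu L x) := fun x => by rw [at_φ, Complex.ofReal_re]
  have hG0 : ∀ x j, Gu L (x, y0) j = dg (fun p => Circle.exp (θ p)) * emb N' (x.1 j) ^ d *
      ((x.2.1 j)⁻¹ * (dg (Sum.elim 1 (x.2.2 j)) * x.2.1 j)) := fun x j => by
    rw [Gu, wd_one L _ (hL j) fun _ => rfl]; rfl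
  let x0 : SS J Φ N' := (fun _ => dg fun p => Circle.exp (-θ (.inl p) / d), 1,
    fun _ p => (Circle.exp (θ (.inr p)))⁻¹)
  refine (laplace μ (hc' F.φ y) (hc' F.φ y0) (hc' (F.jm X).det y) (hc' (F.hm X).det y0)
    (hc' (∏ a : Ix J Φ N' with ¬WW a.1.1 a.1.2, F.pi a) y0)
    (fun x => hφ _ ▸ phi_nonneg _) (fun x => hφ _ ▸ phi_le _) (fun x => hφ _ ▸ phi_nonneg _)
    (fun x => hφ _ ▸ phi_le _) (fun x => ?_) (fun x hx => ?_) (x0 := x0) ?_ ?_ fun k => ?_).imp
    fun x hx => phi_eq_one.mp ((hφ _).symm.trans hx)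
  · obtain ⟨r, h0, hr, -⟩ := at_pi L (x, y0)
    rw [hr]; exact h0
  · rw [hφ, phi_eq_one] at hx
    choose h1 l h2 h3 using fun j => end_struct hβ hβ1 ((hG0 x j).symm.trans (hx j))
    rw [AlgHom.map_det, at_hm L (x, y0) hL (fun _ => rfl) h2 (fun j p => (h3 j p).1)
      fun a => (hX a).1, det_mul, det_ad _ _ h1, mul_one, det_diagonal]
    exact prod_sg_pos hd (fun p q h => Sum.inl.inj (hβ (Circle.ext h))) h3
  · rw [hφ, phi_eq_one]
    intro j
    have e : ∀ z : Φ → Circle, emb N' (dg z) = dg (Sum.elim z 1) := fun z => Subtype.ext (by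
      rw [emb_val, dg_val, dg_val, ← diagonal_one, fromBlocks_diagonal]
      congr 1; ext (p | p) <;> rfl)
    rw [hG0]
    simp only [x0, e, Pi.one_apply, inv_one, one_mul, mul_one, ← map_pow, ← map_mul]
    rw [← map_one dg]
    congr 1
    ext (p | p)
    · have : (d : ℝ) * (-θ (.inl p) / d) = -θ (.inl p) := by field_simp
      simp only [Pi.mul_apply, Pi.pow_apply, Sum.elim_inl, ← Circle.exp_natCast_mul, this]
      simp
    · simp
  · obtain ⟨r, -, hr, h1⟩ := at_pi L (x0, y0)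
    rw [hr]
    exact h1 fun j => ⟨fun p q h => Sum.inr.inj (hβ (inv_injective h)),
      fun p h => hβ1 _ (inv_eq_one.mp h)⟩
  · have h0 := fun (y : J ⊕ Y → _) (hy : ∀ k, y k ∈ HH _) => inv_HH
      (fun y => ∫ x, (F.φ ^ k * (F.jm X).det).1 (x, y) ∂μ) (int_rot μ F rfl rfl hX k) hy
    have h1 := (h0 y hy).trans (h0 y0 hy0).symm
    have h2 := congrArg Complex.re h1
    rw [← Complex.reCLM_apply, ← Complex.reCLM_apply,
      ← Complex.reCLM.integral_comp_comm (integrable_cont μ (hc _ _)),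
      ← Complex.reCLM.integral_comp_comm (integrable_cont μ (hc _ _))] at h2
    refine Eq.trans (integral_congr_ae (.of_forall fun x => ?_))
      (h2.trans (integral_congr_ae (.of_forall fun x => ?_)))
    · simp only [Complex.reCLM_apply, ← at'_apply, map_mul, map_pow, hF, at_φ, Complex.ofReal_re,
        ← Complex.ofReal_pow, Complex.re_ofReal_mul]
    · obtain ⟨r, -, hr, -⟩ := at_pi L (x, y0)
      simp only [Complex.reCLM_apply, ← at'_apply, F.det_jm fun a => (hX a).1, map_mul, map_pow]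
      simp only [hF, hr, at_φ, Complex.ofReal_re, ← Complex.ofReal_pow, Complex.re_ofReal_mul,
        Complex.re_mul_ofReal]

omit x in
/-- The key existence statement. -/
theorem lemU [Fintype Y] {d : ℕ} (hd : d ≠ 0)
    (hL : ∀ j, FreeGroup.mk ((L j).map Prod.snd) = FreeGroup.of j ^ d)
    (y : J ⊕ Y → unitaryGroup (Φ ⊕ N') ℂ) (hy : ∀ k, y k ∈ HH _) :
    ∃ (u : J → unitaryGroup Φ ℂ) (P : J → Matrix (Φ ⊕ N') (Φ ⊕ N') ℂ), ∀ j, IsPr (P j) ∧
      trace (P j) = Fintype.card Φ ∧ (y (.inl j) * ((L j).map fun t => y (.inr t.1) *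
        cond t.2.2 (emb N' (u t.2.1)) (emb N' (u t.2.1))⁻¹ * (y (.inr t.1))⁻¹).prod).1 * P j =
          P j := by
  obtain ⟨x, hx⟩ := exists_Gu L hd hL y hy
  let E : Matrix (Φ ⊕ N') (Φ ⊕ N') ℂ := fromBlocks 1 0 0 0
  have hE : E * E = E := by simp [E, fromBlocks_multiply]
  have hE' : star E = E := by simp [E, star_eq_conjTranspose, fromBlocks_conjTranspose]
  refine ⟨x.1, fun j => star (x.2.1 j).1 * (E * (x.2.1 j).1), fun j => ⟨⟨?_, ?_⟩, ?_, ?_⟩⟩
  · simp [hE', mul_assoc]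
  · simp only [mul_assoc]
    rw [← mul_assoc (x.2.1 j).1, (x.2.1 j).2.2, one_mul, ← mul_assoc E, hE]
  · rw [trace_mul_comm, mul_assoc, (x.2.1 j).2.2, mul_one]
    simp [E, trace]
  · have h : (wd L (fun k => rho _ k (x, y)) j).1 * (star (x.2.1 j).1 *
      ((dg (Sum.elim 1 (x.2.2 j))).1 * (x.2.1 j).1)) = 1 := congrArg Subtype.val (hx j)
    have h2 : (dg (Sum.elim 1 (x.2.2 j))).1 * E = E := by
      ext (p | p) (q | q) <;> simp [dg_val, E]
    have h3 := congrArg (· * (star (x.2.1 j).1 * (E * (x.2.1 j).1))) h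
    simp only [mul_assoc, one_mul] at h3
    rw [← mul_assoc (x.2.1 j).1, (x.2.1 j).2.2, one_mul, ← mul_assoc _ E, h2] at h3
    exact h3

end Vale.Agent.P174
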