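import Vale.Agent.P174.Tr
import Vale.Agent.P174.DegB

/-!
# P174: matrices over the group algebra
-/

namespace Vale.Agent.P174

open Finset Matrix
open MonoidAlgebra hiding of_apply of

variable {G : Type*} [Group G]

noncomputable instance starGA : Star (MonoidAlgebra ℂ G) where
  star x := .ofCoeff (Finsupp.equivMapDomain (Equiv.inv G) (x.coeff.mapRange star (star_zero _)))

theorem coeff_star (x : MonoidAlgebra ℂ G) (g : G) : (star x).coeff g = star (x.coeff g⁻¹) := rfl

theorem star_single (a : G) (r : ℂ) :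
    star (MonoidAlgebra.single a r) = MonoidAlgebra.single a⁻¹ (star r) := by
  classical
  ext g
  simp only [coeff_star, coeff_single, Finsupp.single_apply, inv_eq_iff_eq_inv]
  split_ifs <;> simp

noncomputable instance starRingGA : StarRing (MonoidAlgebra ℂ G) where
  star_involutive x := by ext g; simp [coeff_star]
  star_add x y := by ext g; simp [coeff_star]
  star_mul x y := by
    ext g
    induction x using MonoidAlgebra.induction_linear with
    | zero =>
      have : star (0 : MonoidAlgebra ℂ G) = 0 := by ext g; simp [coeff_star]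
      simp [this]
    | add x x' h h' =>
      have : star (x + x') = star x + star x' := by ext g; simp [coeff_star]
      simp only [coeff_star] at h h'
      simp [this, coeff_star, add_mul, mul_add, ← h, ← h']
    | single a r => simp [star_single, coeff_star, mul_comm]

instance starModGA : StarModule ℂ (MonoidAlgebra ℂ G) where
  star_smul c x := by ext g; simp [coeff_star]

/-- Group elements with phases. -/
noncomputable def ee : G × Circle →* MonoidAlgebra ℂ G where
  toFun x := MonoidAlgebra.single x.1 x.2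
  map_one' := rfl
  map_mul' x y := by simp [single_mul_single]

theorem ee_apply (x : G × Circle) : ee x = MonoidAlgebra.single x.1 (x.2 : ℂ) := rfl

theorem star_ee (x : G × Circle) : star (ee x) = ee x⁻¹ := by
  rw [ee_apply, ee_apply, star_single, Prod.snd_inv, Circle.coe_inv_eq_conj]; rfl

variable {I I' : Type} [Fintype I] [DecidableEq I] [Fintype I'] [DecidableEq I']

variable (G I) in
/-- The canonical trace. -/
noncomputable def tr : Tr (Matrix I I (MonoidAlgebra ℂ G)) where
  τ :=
    { toFun := fun M => (trace M).coeff 1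
      map_add' := fun M N => by simp
      map_smul' := fun c M => by simp }
  cyc M N := by
    have : ∀ x y : MonoidAlgebra ℂ G, (x * y).coeff 1 = (y * x).coeff 1 := fun x y => by
      induction x using MonoidAlgebra.induction_linear with
      | zero => simp
      | add x x' h h' => simp [add_mul, mul_add, h, h']
      | single a r => simp [mul_comm]
    simp only [trace, Matrix.diag, Matrix.mul_apply, LinearMap.coe_mk, AddHom.coe_mk, coeff_sum,
      Finsupp.finsetSum_apply]
    rw [sum_comm]
    simp only [this (M _ _)]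
  st M := by simp [star_eq_conjTranspose, trace_conjTranspose, coeff_star]
  pos M := by
    simp only [trace, Matrix.diag, Matrix.mul_apply, LinearMap.coe_mk, AddHom.coe_mk, coeff_sum,
      Finsupp.finsetSum_apply, Complex.re_sum, star_apply, coeff_mul_apply_right, Finsupp.sum,
      coeff_star]
    refine sum_nonneg fun i _ => sum_nonneg fun j _ => sum_nonneg fun g _ => ?_
    simp only [one_mul, inv_inv, Complex.star_def, Complex.conj_mul']
    rw [← Complex.ofReal_pow, Complex.ofReal_re]
    positivity

theorem tr_apply (M : Matrix I I (MonoidAlgebra ℂ G)) : (tr G I).τ M = ∑ i, (M i i).coeff 1 := by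
  simp [tr, trace]

variable (G) in
/-- Scalar matrices. -/
noncomputable def cs : Matrix I I ℂ →ₐ[ℂ] Matrix I I (MonoidAlgebra ℂ G) :=
  (Algebra.ofId ℂ _).mapMatrix

theorem cs_apply (A : Matrix I I ℂ) (p q : I) : cs G A p q = MonoidAlgebra.single 1 (A p q) := rfl

theorem cs_star (A : Matrix I I ℂ) : star (cs G A) = cs G (star A) := by
  ext p q : 2
  simp only [star_apply, cs_apply, star_single, inv_one]

theorem tr_cs (A : Matrix I I ℂ) : (tr G I).τ (cs G A) = trace A := by
  simp [tr_apply, cs_apply, trace]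

theorem cs_mem {A : Matrix I I ℂ} (h : A ∈ unitary _) : cs G A ∈ unitary _ := by
  rw [Unitary.mem_iff, cs_star, ← map_mul, ← map_mul, h.1, h.2, map_one]
  exact ⟨rfl, rfl⟩

theorem m_pr {A B : Matrix I I (MonoidAlgebra ℂ G)} (hA : A ∈ unitary _) (hB : B ∈ unitary _)
    {P : Matrix I I ℂ} (hP : IsPr P) {ρ : ℝ} (h0 : 0 ≤ ρ) (h1 : ρ < 1) :
    (tr G I).m ρ (A * cs G (1 - (2 : ℂ) • P) * B) ≤
      (tr G I).m ρ (A * B) + Real.pi * (trace P).re := by
  rw [map_sub, map_one, map_smul, ← tr_cs (G := G)]
  exact (tr G I).mono' hA hB (by rw [cs_star, hP.1]) (by rw [← map_mul, hP.2]) h0 h1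

/-- Monomial matrices. -/
def mon {R : Type*} [Zero R] (σ : Equiv.Perm I) (w : I → R) : Matrix I I R :=
  of fun i j => if σ i = j then w i else 0

section mon
variable {R : Type*} [Semiring R] (σ σ' : Equiv.Perm I) (w w' : I → R)

theorem mon_mul_apply {K : Type} (M : Matrix I K R) (i : I) (k : K) :
    (mon σ w * M) i k = w i * M (σ i) k := by
  simp [mon, Matrix.mul_apply]

theorem mon_mul : mon σ w * mon σ' w' = mon (σ' * σ) fun i => w i * w' (σ i) := by
  ext i j; rw [mon_mul_apply]; simp only [mon, of_apply, mul_ite, mul_zero]; rfl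

omit [Fintype I] in
theorem mon_one : mon 1 w = diagonal w := rfl

omit [Fintype I] in
theorem mon_perm : σ.permMatrix R = mon σ 1 := by
  ext i j; simp [mon, PEquiv.toMatrix_apply]

omit [Fintype I] [Fintype I'] in
theorem mon_sum (s : Equiv.Perm I') (v : I ⊕ I' → R) : mon (Equiv.sumCongr σ s) v =
    fromBlocks (mon σ fun i => v (.inl i)) 0 0 (mon s fun i => v (.inr i)) := by
  ext (i | i) (j | j) <;> simp [mon]

theorem mon_mem [StarRing R] (h : ∀ i, w i ∈ unitary R) : mon σ w ∈ unitary _ := by
  have : star (mon σ w) = mon σ⁻¹ fun j => star (w (σ⁻¹ j)) := by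
    ext i j
    simp only [star_apply, mon, of_apply, Equiv.Perm.inv_eq_iff_eq, eq_comm (a := i)]
    split_ifs with h
    · simp [← h]
    · simp
  rw [Unitary.mem_iff, this, mon_mul, mon_mul]
  simp [(h _).1, (h _).2, mon_one]

end mon

theorem ee_mem (x : G × Circle) : ee x ∈ unitary _ := by
  rw [Unitary.mem_iff, star_ee, ← map_mul, ← map_mul]; simp

theorem cs_mon (σ : Equiv.Perm I) (z : I → Circle) :
    cs G (mon σ fun i => z i) = mon σ fun i => ee (1, z i) := by
  refine Matrix.ext fun i j => ?_
  simp only [cs_apply, mon, of_apply]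
  split_ifs <;> simp [ee_apply]

theorem cs_perm (σ : Equiv.Perm I) : cs G (σ.permMatrix ℂ) = mon σ 1 := by
  rw [mon_perm]; exact cs_mon σ 1

theorem cs_blocks (A : Matrix I I ℂ) (D : Matrix I' I' ℂ) :
    cs G (fromBlocks A 0 0 D) = fromBlocks (cs G A) 0 0 (cs G D) := by
  ext (i | i) (j | j) : 2 <;> simp [cs_apply]

theorem tr_blocks (A : Matrix I I (MonoidAlgebra ℂ G)) (D : Matrix I' I' (MonoidAlgebra ℂ G))
    (k : ℕ) : (tr G _).τ (fromBlocks A 0 0 D ^ k) = (tr G _).τ (A ^ k) + (tr G _).τ (D ^ k) := by
  simp [fromBlocks_diagonal_pow, tr_apply]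

theorem tr_mon {σ : Equiv.Perm I} {w q : I → G × Circle} {c : Circle}
    (h : ∀ i, q (σ i) * (1, c) = q i * w i) (k : ℕ) : (tr G I).τ ((mon σ fun i => ee (w i)) ^ k) =
      ∑ i, if Function.minimalPeriod σ i ∣ k then (c : ℂ) ^ k else 0 := by
  have e : (mon σ fun i => ee (w i)) ^ k =
      mon (σ ^ k) fun i => ee ((q i)⁻¹ * q ((σ ^ k) i) * (1, c ^ k)) := by
    induction k with
    | zero => simp [mon_one, ← Prod.one_eq_mk]
    | succ k ih =>
      rw [pow_succ, ih, mon_mul, pow_succ' σ]
      congr 1
      funext i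
      rw [← map_mul, ← mul_left_cancel_iff.mp ((mul_inv_cancel_left _ _).trans (h _)),
        Equiv.Perm.mul_apply]
      congr 1
      refine Prod.ext (by simp) ?_
      simp only [Prod.snd_mul, Prod.snd_inv, pow_succ]
      rw [mul_assoc _ (c ^ k), mul_left_comm (c ^ k)]
      simp [mul_assoc, mul_left_comm (c ^ k)]
  rw [e, tr_apply]
  refine sum_congr rfl fun i _ => ?_
  simp only [mon, of_apply, ← Function.isPeriodicPt_iff_minimalPeriod_dvd, Function.IsPeriodicPt,
    Function.IsFixedPt, Equiv.Perm.iterate_eq_pow]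
  split_ifs with h
  · simp [h, ee_apply]
  · simp

theorem tr_star (g : G) (c : Circle) (k : ℕ) :
    (tr G Unit).τ ((mon 1 fun _ => ee (g, c)) ^ k) = if orderOf g ∣ k then (c : ℂ) ^ k else 0 := by
  classical
  rw [mon_one, diagonal_pow, tr_apply]
  simp [ee_apply, orderOf_dvd_iff_pow_eq_one, Finsupp.single_apply]

theorem tr_invol {M : Matrix I I ℂ} (h : M * M = 1) (h0 : trace M = 0) (c : Circle) (k : ℕ) :
    (tr G I).τ (cs G ((c : ℂ) • M) ^ k) = ∑ _ : I, if 2 ∣ k then (c : ℂ) ^ k else 0 := by
  rw [← map_pow, tr_cs, _root_.smul_pow, trace_smul]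
  obtain ⟨n, rfl | rfl⟩ := Nat.even_or_odd' k
  · rw [pow_mul M, sq, h]; simp [mul_comm]
  · simp [pow_succ, pow_mul M, h, h0]

theorem m_swaps {A : Matrix I I (MonoidAlgebra ℂ G)} (hA : A ∈ unitary _) {ρ : ℝ} (h0 : 0 ≤ ρ)
    (h1 : ρ < 1) (l : List (I × I)) (σ : Equiv.Perm I) :
    (tr G I).m ρ (A * mon (σ * (l.map fun p => Equiv.swap p.1 p.2).prod) 1) ≤
      (tr G I).m ρ (A * mon σ 1) + Real.pi * l.length := by
  induction l generalizing σ with
  | nil => simp
  | cons p l ih =>
    rw [List.map_cons, List.prod_cons, ← mul_assoc, List.length_cons]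
    refine (ih _).trans ?_
    push_cast
    rw [mul_add, mul_one, add_comm _ Real.pi, ← add_assoc, add_le_add_iff_right]
    by_cases h : p.1 = p.2
    · rw [h, Equiv.swap_self, ← Equiv.Perm.one_def, mul_one]
      linarith [Real.pi_pos]
    obtain ⟨P, hP, e1, e2⟩ := swap_pr h
    have := m_pr hA (mon_mem σ 1 fun _ => one_mem _) hP h0 h1
    rw [← e2, e1, cs_perm, mul_assoc, mon_mul] at this
    simpa [← Pi.one_def] using this

end Vale.Agent.P174
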