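import Vale.Agent.P174.Comb

/-!
# P174: Howie's conjecture
-/

namespace Vale.Agent.P174

open Finset Monoid Matrix

variable {G : Type*} [Group G] {J : Type}

theorem exists_list (c : Coprod G (FreeGroup J)) :
    ∃ l : List (Option (J × Bool) × G), (l.map vl).prod = c := by
  induction c using Coprod.induction_on with
  | inl g => exact ⟨[(none, g)], by simp [vl, lv]⟩
  | mul a b ha hb =>
    obtain ⟨l, rfl⟩ := ha
    obtain ⟨l', rfl⟩ := hb
    exact ⟨l ++ l', by simp⟩
  | inr f =>
    obtain ⟨L, rfl⟩ := Quot.exists_rep f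
    refine ⟨L.map fun y => (some y, 1), ?_⟩
    induction L with
    | nil => exact (map_one _).symm
    | cons y L ih =>
      rw [List.map_cons, List.map_cons, List.prod_cons, ih]
      simp only [vl, lv, Option.elim, map_one, mul_one]
      exact (map_mul _ _ _).symm

theorem exists_Z {w : J → Coprod G (FreeGroup J)} {x : Coprod G (FreeGroup J)}
    (hx : x ∈ Subgroup.normalClosure (Set.range w)) :
    ∃ Z : List ((Bool × J) ⊕ Option (J × Bool) × G),
      (Z.map (Sum.elim (fun a => cond a.1 (w a.2) (w a.2)⁻¹) vl)).prod = x ∧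
        (Z.map (Sum.elim 1 vl)).prod = 1 := by
  induction hx using Subgroup.closure_induction'' with
  | one => exact ⟨[], rfl, rfl⟩
  | mul x y _ _ hx hy =>
    obtain ⟨Z, rfl, h⟩ := hx
    obtain ⟨Z', rfl, h'⟩ := hy
    exact ⟨Z ++ Z', by simp, by simp [h, h']⟩
  | mem x hx =>
    obtain ⟨_, ⟨i, rfl⟩, h⟩ := Group.mem_conjugatesOfSet_iff.mp hx
    obtain ⟨c, rfl⟩ := isConj_iff.mp h
    obtain ⟨l, e⟩ := exists_list c
    obtain ⟨l', e'⟩ := exists_list c⁻¹
    exact ⟨l.map .inr ++ .inl (true, i) :: l'.map .inr, by simp [e, e', mul_assoc], by simp [e, e']⟩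
  | inv_mem x hx =>
    obtain ⟨_, ⟨i, rfl⟩, h⟩ := Group.mem_conjugatesOfSet_iff.mp hx
    obtain ⟨c, rfl⟩ := isConj_iff.mp h
    obtain ⟨l, e⟩ := exists_list c
    obtain ⟨l', e'⟩ := exists_list c⁻¹
    exact ⟨l.map .inr ++ .inl (false, i) :: l'.map .inr, by simp [e, e', mul_assoc],
      by simp [e, e']⟩

/-- The number of occurrences of a face type. -/
def cnt {A : Type} {B : Type*} [DecidableEq A] (a : A) (Z : List (A ⊕ B)) : ℕ :=
  (Z.map fun t => if t.getLeft? = some a then 1 else 0).sum

theorem enum {A : Type} {B : Type*} [DecidableEq A] (Z : List (A ⊕ B)) {f : ℕ}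
    (h : ∀ a, cnt a Z = f) : ∃ (S : Type) (_ : Fintype S) (lS : S → B)
      (Z' : List ((Fin f × A) ⊕ S)), Z'.Nodup ∧ (∀ t, t ∈ Z') ∧
        Z'.map (Sum.map Prod.snd lS) = Z := by
  classical
  have h1 : ∀ a, Fintype.card {k // Z.get k = .inl a} = f := fun a => by
    rw [Fintype.card_subtype, ← h a, card_filter, cnt]
    conv_rhs => rw [← List.ofFn_get Z, List.map_ofFn, List.sum_ofFn]
    simp
  let e := fun a => (Fintype.equivFinOfCardEq (h1 a)).symm
  let g : (Fin f × A) ⊕ {k // (Z.get k).isRight} → Fin Z.length :=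
    Sum.elim (fun p => (e p.2 p.1).1) Subtype.val
  have key : ∀ t, Z.get (g t) = Sum.map Prod.snd (fun k => (Z.get k.1).getRight k.2) t := by
    rintro (p | k)
    exacts [(e p.2 p.1).2, (Sum.inr_getRight _ _).symm]
  have hg : Function.Bijective g := by
    refine ⟨fun t t' e' => ?_, fun k => ?_⟩
    · have := (key t).symm.trans ((congrArg Z.get e').trans (key t'))
      rcases t with ⟨p, a⟩ | t <;> rcases t' with ⟨p', a'⟩ | t'
      · obtain rfl : a = a' := Sum.inl.inj this
        exact congrArg (fun p => Sum.inl (p, a)) ((e a).injective (Subtype.ext e'))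
      · cases this
      · cases this
      · exact congrArg _ (Subtype.ext e')
    · rcases hk : Z.get k with a | b
      · exact ⟨.inl ((e a).symm ⟨k, hk⟩, a), by simp [g]⟩
      · exact ⟨.inr ⟨k, by rw [hk]; rfl⟩, rfl⟩
  let E := Equiv.ofBijective g hg
  refine ⟨_, inferInstance, fun k => (Z.get k.1).getRight k.2, List.ofFn E.symm,
    List.nodup_ofFn.mpr E.symm.injective, fun t => List.mem_ofFn.mpr ⟨E t, by simp⟩, ?_⟩
  rw [List.map_ofFn]
  refine (congrArg _ (funext fun k => (key _).symm.trans ?_)).trans (List.ofFn_get Z)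
  exact congrArg Z.get (E.apply_symm_apply k)

theorem square [Fintype J] [DecidableEq J] {w : J → Coprod G (FreeGroup J)} {d : ℕ} (hd : d ≠ 0)
    (hex : ∀ i j, ex j (w i) = Multiplicative.ofAdd (if i = j then (d : ℤ) else 0)) {g : G}
    (hg : Coprod.inl g ∈ Subgroup.normalClosure (Set.range w)) : g = 1 := by
  classical
  obtain ⟨Z, h1, h2⟩ := exists_Z hg
  have h3 : ∀ j (Z : List ((Bool × J) ⊕ Option (J × Bool) × G)),
      (ex j (Z.map (Sum.elim (fun a => cond a.1 (w a.2) (w a.2)⁻¹) vl)).prod).toAdd =
        (ex j (Z.map (Sum.elim 1 vl)).prod).toAdd +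
          d * ((cnt (true, j) Z : ℤ) - cnt (false, j) Z) := fun j Z => by
    induction Z with
    | nil => simp [cnt]
    | cons t Z ih =>
      simp only [cnt] at ih
      simp only [List.map_cons, List.prod_cons, map_mul, toAdd_mul, ih, cnt, List.sum_cons]
      rcases t with ⟨_ | _, i⟩ | t
      · by_cases e : i = j <;> simp [hex, e]
        ring
      · by_cases e : i = j <;> simp [hex, e]
        ring
      · simp [add_assoc]
  have h4 : ∀ j, cnt (true, j) Z = cnt (false, j) Z := fun j => by
    have := h3 j Z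
    rw [h1, h2] at this
    simpa [ex, hd, sub_eq_zero] using this
  obtain ⟨l, hl⟩ : ∃ l : List J, ∀ i, l.count i = Z.length - cnt (true, i) Z :=
    ⟨(∑ i, (Z.length - cnt (true, i) Z) • ({i} : Multiset J)).toList, fun i => by
      rw [← Multiset.coe_count, Multiset.coe_toList]
      simp [Multiset.count_sum', Multiset.count_singleton]⟩
  have h5 : ∀ (l : List J) b i, cnt (b, i) (l.flatMap fun i => [(Sum.inl (true, i) : (Bool × J) ⊕
      Option (J × Bool) × G), .inl (false, i)]) = l.count i := fun l b i => by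
    induction l with
    | nil => rfl
    | cons k l ih => cases b <;> simp [List.count_cons, ← ih, cnt, add_comm]
  obtain ⟨S, _, lS, Z', z1, z2, z3⟩ := enum (.inr (none, 1) :: (Z ++ l.flatMap fun i =>
    [.inl (true, i), .inl (false, i)])) (f := Z.length) fun ⟨b, i⟩ => by
      have h6 : cnt (true, i) Z ≤ Z.length := by
        refine (List.sum_le_card_nsmul _ 1 fun x hx => ?_).trans (by simp)
        obtain ⟨t, -, rfl⟩ := List.mem_map.mp hx
        split_ifs <;> simp
      have h7 : cnt (b, i) Z = cnt (true, i) Z := by cases b; exacts [(h4 i).symm, rfl]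
      have h8 := h5 l b i
      have h9 := hl i
      simp only [cnt, List.map_cons, List.map_append, List.sum_cons, List.sum_append,
        Sum.getLeft?_inr, reduceCtorEq, if_false] at h6 h7 h8 h9 ⊢
      omega
  have : Nonempty S := by
    obtain ⟨t, -, ht⟩ := List.mem_map.mp (z3 ▸ List.mem_cons_self)
    rcases t with t | t
    exacts [by simp at ht, ⟨t⟩]
  choose Lw hLw using fun i => exists_list (w i)
  refine inv_eq_one.mp (core_cb (Φ := Fin Z.length) (lS := lS)
    (lP := fun p : Σ i, Fin (Lw i).length => (Lw p.1).get p.2) (ty := Sigma.fst)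
    (F := fun i => (List.finRange _).map (Sigma.mk i))
    (fun i => (List.nodup_finRange _).map sigma_mk_injective) (fun ⟨i, p⟩ j => ?_) hd (fun i => ?_)
    hex (Z := .inl none :: Z'.map (Sum.map some id)) (List.nodup_cons.mpr ⟨?_, z1.map
      ((Option.some_injective _).sumMap Function.injective_id)⟩) ?_ ?_ ?_)
  · by_cases h : i = j
    · subst h; simp
    · simp [h, Ne.symm h]
  · rw [← hLw, List.map_map]
    conv_rhs => rw [← List.map_get_finRange (Lw i), List.map_map]
    rfl
  · simp [Sum.exists]
  · rintro ((_ | a) | s)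
    · simp
    · exact List.mem_cons_of_mem _ (List.mem_map_of_mem (z2 (.inl a)))
    · exact List.mem_cons_of_mem _ (List.mem_map_of_mem (z2 (.inr s)))
  · have := congrArg (fun Z => (Z.map (Sum.elim (fun a : Bool × J => cond a.1 (w a.2) (w a.2)⁻¹)
      vl)).prod) z3
    simp only [List.map_map, List.map_cons, List.prod_cons, List.map_append, List.prod_append, h1,
      prod_blocks, Sum.elim_comp_map] at this ⊢
    refine Eq.trans (congrArg _ this) ?_
    simp [vl, lv]
  · have := congrArg (fun Z => (Z.map (Sum.elim 1 vl)).prod) z3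
    simp only [List.map_map, List.map_cons, List.prod_cons, List.map_append, List.prod_append, h2,
      prod_blocks, Sum.elim_comp_map] at this
    refine Eq.trans ?_ (this.trans (by simp [vl, lv]))
    clear this z1 z2 z3
    induction Z' with
    | nil => rfl
    | cons t Z' ih => cases t <;> simpa [List.filterMap_cons] using ih

theorem howie {m n : ℕ} (w : Fin m → Coprod G (FreeGroup (Fin n)))
    (hw : (Matrix.of fun i j => ((Coprod.lift (1 : G →* Multiplicative (Fin n → ℤ))
      (FreeGroup.lift fun k => Multiplicative.ofAdd (Pi.single k 1)) (w i)).toAdd j : ℚ)).rank = m)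
    {g : G} (hg : Coprod.inl g ∈ Subgroup.normalClosure (Set.range w)) : g = 1 := by
  set E := Coprod.lift (1 : G →* Multiplicative (Fin n → ℤ))
    (FreeGroup.lift fun k => Multiplicative.ofAdd (Pi.single k 1)) with hE
  set A : Matrix (Fin m) (Fin n) ℤ := Matrix.of fun i j => (E (w i)).toAdd j with hA
  have hdet : (A * Aᵀ).det ≠ 0 := by
    have h1 := rank_self_mul_transpose (A.map (Int.castRingHom ℚ))
    rw [show (A.map (Int.castRingHom ℚ)).rank = m from hw, ← transpose_map, ← Matrix.map_mul] at h1
    have h2 := mulVec_surjective_iff_isUnit.mp (LinearMap.range_eq_top.mp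
      (Submodule.eq_top_of_finrank_eq (h1.trans (by simp))))
    intro e
    rw [isUnit_iff_isUnit_det, ← RingHom.mapMatrix_apply, ← RingHom.map_det, e] at h2
    simp at h2
  set C := (A * Aᵀ).det • (Aᵀ * (A * Aᵀ).adjugate) with hC
  have hAC : A * C = ((A * Aᵀ).det ^ 2) • (1 : Matrix _ _ ℤ) := by
    rw [hC, Matrix.mul_smul, ← Matrix.mul_assoc, mul_adjugate, smul_smul, sq]
  let σ : Coprod G (FreeGroup (Fin n)) →* Coprod G (FreeGroup (Fin m)) := Coprod.map (MonoidHom.id G)
    (FreeGroup.lift fun j => (List.ofFn fun l => FreeGroup.of l ^ C j l).prod)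
  have h1 : ∀ l x, (ex l (σ x)).toAdd = ∑ j, (E x).toAdd j * C j l := fun l x => by
    induction x using Coprod.induction_on with
    | inl g => simp [σ, ex, hE]
    | mul a b ha hb => simp [ha, hb, add_mul, sum_add_distrib]
    | inr f =>
      induction f using FreeGroup.induction_on with
      | C1 => simp
      | of k =>
        simp [σ, ex, hE, map_list_prod, List.map_ofFn, List.prod_ofFn, toAdd_prod, Pi.single_apply]
      | inv_of k h => simpa [neg_inj] using h
      | mul a b ha hb => simp [ha, hb, add_mul, sum_add_distrib]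
  refine square (w := fun i => σ (w i)) (d := (A * Aᵀ).det.natAbs ^ 2) (by simpa using hdet)
    (fun i j => ?_) ?_
  · have := congrFun (congrFun hAC i) j
    rw [← ofAdd_toAdd (ex j _), h1]
    congr 1
    simpa [mul_apply, hA, one_apply] using this
  · refine Subgroup.normalClosure_le_normal
      (N := (Subgroup.normalClosure (Set.range fun i => σ (w i))).comap σ) ?_ hg
    rintro _ ⟨i, rfl⟩
    exact Subgroup.subset_normalClosure ⟨i, rfl⟩

end Vale.Agent.P174
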