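import Vale.Agent.P174.Grp
import Vale.Agent.P174.DegC

/-!
# P174: the common eigenspace of the two pairings
-/

namespace Vale.Agent.P174

open Finset Matrix

variable {J Φ Y R0 : Type} [Fintype Φ] [DecidableEq Φ] [Fintype Y] [DecidableEq Y]

/-- Block monomial matrices. -/
def fm (r : Equiv.Perm Y) (v : Y → Matrix Φ Φ ℂ) : Matrix (Φ × Y) (Φ × Y) ℂ :=
  of fun x x' => if r x.2 = x'.2 then v x.2 x.1 x'.1 else 0

omit [DecidableEq Φ] in
theorem fm_mul_apply {K : Type} (r : Equiv.Perm Y) (v : Y → Matrix Φ Φ ℂ) (W : Matrix (Φ × Y) K ℂ)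
    (x : Φ × Y) (k : K) : (fm r v * W) x k = ∑ ψ, v x.2 x.1 ψ * W (ψ, r x.2) k := by
  simp [fm, mul_apply, Fintype.sum_prod_type]

omit [DecidableEq Φ] in
theorem fm_mul (r r' : Equiv.Perm Y) (v v' : Y → Matrix Φ Φ ℂ) :
    fm r v * fm r' v' = fm (r' * r) fun y => v y * v' (r y) := by
  ext x x'
  rw [fm_mul_apply]
  simp only [fm, of_apply, Equiv.Perm.mul_apply, mul_apply]
  split_ifs <;> simp

omit [Fintype Φ] [Fintype Y] in
theorem fm_mon (r : Equiv.Perm Y) :
    mon (Equiv.prodCongr (1 : Equiv.Perm Φ) r) 1 = fm r fun _ => 1 := by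
  ext ⟨a, y⟩ ⟨b, y'⟩
  by_cases h : a = b <;> simp [fm, mon, one_apply, h]

omit [Fintype Φ] [Fintype Y] in
theorem fm_one : fm (1 : Equiv.Perm Y) (fun _ => (1 : Matrix Φ Φ ℂ)) = 1 := by
  ext ⟨a, y⟩ ⟨b, y'⟩
  by_cases h : a = b <;> simp [fm, one_apply, h]

omit [DecidableEq Φ] in
theorem fm_trace {r : Equiv.Perm Y} (h : ∀ y, r y ≠ y) (v : Y → Matrix Φ Φ ℂ) :
    trace (fm r v) = 0 := by
  simp [trace, fm, h]

/-- Block diagonal unitaries. -/
noncomputable def bd : (Y → unitaryGroup Φ ℂ) →* unitaryGroup (Φ × Y) ℂ where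
  toFun v := ⟨fm 1 fun y => (v y).1, by
    have : star (fm 1 fun y => (v y).1) = fm 1 fun y => star (v y).1 := by
      ext x x'
      simp only [star_apply, fm, of_apply, Equiv.Perm.one_apply, eq_comm (a := x.2)]
      split_ifs with h <;> simp [h]
    rw [mem_unitaryGroup_iff, this, fm_mul]
    simp [fm_one]⟩
  map_one' := Subtype.ext fm_one
  map_mul' v w := Subtype.ext (by simp [fm_mul])

/-- Embedding as the lower block. -/
noncomputable def emb2 (m : Type) [Fintype m] [DecidableEq m] :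
    unitaryGroup Φ ℂ →* unitaryGroup (m ⊕ Φ) ℂ where
  toFun u := ⟨fromBlocks 1 0 0 u.1, by
    rw [mem_unitaryGroup_iff, star_eq_conjTranspose, fromBlocks_conjTranspose, fromBlocks_multiply,
      ← star_eq_conjTranspose u.1, u.2.2]
    simp⟩
  map_one' := Subtype.ext (by simp)
  map_mul' u v := Subtype.ext (by simp [fromBlocks_multiply])

theorem mon_HH (σ : Equiv.Perm Y) (w : Y → Circle) :
    ∃ U ∈ HH Y, U.1 = mon σ fun i => (w i : ℂ) := by
  obtain ⟨U, hU, e⟩ := perm_mem σ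
  refine ⟨dg w * U, mul_mem (dg_mem w) hU, ?_⟩
  rw [Submonoid.coe_mul, e, dg_val, ← mon_one, mon_perm, mon_mul]
  simp

omit [Fintype Y] in
theorem prod_mulSingle {Γ : Type} [Monoid Γ] (v : Y → Γ) : ∀ l : List Y, l.Nodup →
    (l.map fun y => Pi.mulSingle (M := fun _ => Γ) y (v y)).prod =
      fun y => if y ∈ l then v y else 1
  | [], _ => by simp [Pi.one_def]
  | x :: l, h => by
    rw [List.map_cons, List.prod_cons, prod_mulSingle v l h.of_cons]
    funext y
    by_cases e : y = x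
    · simp [e, h.notMem]
    · simp [e]

variable [Fintype R0] [DecidableEq R0]

theorem exists_conj (y : Y) : ∃ C ∈ HH (Φ ⊕ (R0 ⊕ Φ × Y)), ∀ u : unitaryGroup Φ ℂ,
    C * emb _ u * C⁻¹ = emb2 Φ (emb2 R0 (bd (Pi.mulSingle y u))) := by
  let s : Φ ⊕ (R0 ⊕ Φ × Y) → Φ ⊕ (R0 ⊕ Φ × Y) := Sum.elim (fun a => .inr (.inr (a, y)))
    (Sum.elim (fun r => .inr (.inl r)) fun x => if x.2 = y then .inl x.1 else .inr (.inr x))
  have hs : Function.Involutive s := by
    rintro (a | r | ⟨a, y'⟩)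
    · simp [s]
    · simp [s]
    · by_cases h : y' = y <;> simp [s, h]
  obtain ⟨C, hC, e⟩ := perm_mem hs.toPerm
  refine ⟨C, hC, fun u => ?_⟩
  rw [mul_inv_eq_iff_eq_mul]
  refine Subtype.ext ?_
  rw [Submonoid.coe_mul, Submonoid.coe_mul, e, PEquiv.toMatrix_toPEquiv_mul,
    PEquiv.mul_toMatrix_toPEquiv]
  show _ = (fromBlocks 1 0 0 (fromBlocks 1 0 0 (fm 1 fun y' =>
    (Pi.mulSingle (M := fun _ => unitaryGroup Φ ℂ) y u y').1))).submatrix id s
  ext (a | r | ⟨a, y'⟩) (b | r' | ⟨b, y''⟩) <;>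
    simp only [submatrix_apply, Function.Involutive.coe_toPerm, s, Sum.elim_inl, Sum.elim_inr, id] <;>
    (try split_ifs) <;> simp_all [emb_val, fm, one_apply, Pi.mulSingle_apply] <;> grind

theorem bd_row {K : Type} (v : Y → unitaryGroup Φ ℂ) (W : Matrix (R0 ⊕ Φ × Y) K ℂ) (k : K) :
    (∀ r, ((emb2 R0 (bd v)).1 * W) (.inl r) k = W (.inl r) k) ∧ ∀ a y,
      ((emb2 R0 (bd v)).1 * W) (.inr (a, y)) k = ∑ b, (v y).1 a b * W (.inr (b, y)) k := by
  have : (emb2 R0 (bd v)).1 = fromBlocks 1 0 0 (fm 1 fun y => (v y).1) := rfl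
  refine ⟨fun r => by simp [this, mul_apply, one_apply], fun a y => ?_⟩
  simpa [this, mul_apply] using
    fm_mul_apply 1 (fun y => (v y).1) (of fun x k => W (.inr x) k) (a, y) k

theorem bd_zero {K : Type} (v : Y → unitaryGroup Φ ℂ) {W : Matrix (R0 ⊕ Φ × Y) K ℂ}
    {p : R0 ⊕ Φ × Y → Prop} (hp : ∀ a b y, p (.inr (a, y)) → p (.inr (b, y)))
    (hW : ∀ i k, p i → W i k = 0) (i : R0 ⊕ Φ × Y) (k : K) (h : p i) :
    ((emb2 R0 (bd v)).1 * W) i k = 0 := by
  rcases i with r | ⟨a, y⟩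
  · rw [(bd_row v W k).1, hW _ _ h]
  · rw [(bd_row v W k).2]
    exact sum_eq_zero fun b _ => by rw [hW _ _ (hp _ _ _ h), mul_zero]

theorem exists_P [Fintype J] [DecidableEq J] (lR : R0 → Option (J × Bool))
    (lY : Y → Option (J × Bool)) (tb : Y → J × Bool) (L : J → List Y) (hn : ∀ j, (L j).Nodup)
    (hm : ∀ j y, y ∈ L j ↔ lY y = some (j, true)) {d : ℕ} (hd : d ≠ 0)
    (hL : ∀ j, FreeGroup.mk ((L j).map tb) = FreeGroup.of j ^ d) (κ : Equiv.Perm (R0 ⊕ Φ × Y))
    (hκ : ∀ i, Sum.elim lR (fun x => lY x.2) (κ i) = Sum.elim lR (fun x => lY x.2) i)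
    (z : R0 ⊕ Φ × Y → Circle) :
    ∃ (u : J → unitaryGroup Φ ℂ) (P : Matrix (R0 ⊕ Φ × Y) (R0 ⊕ Φ × Y) ℂ), IsPr P ∧
      trace P = Fintype.card J * Fintype.card Φ ∧
      (∀ i k, (∀ j, Sum.elim lR (fun x => lY x.2) i ≠ some (j, true)) → P i k = 0) ∧
      mon κ (fun i => (z i : ℂ)) * (emb2 R0 (bd fun y =>
        cond (tb y).2 (u (tb y).1) (u (tb y).1)⁻¹)).1 * P = P := by
  set lab : R0 ⊕ Φ × Y → Option (J × Bool) := Sum.elim lR fun x => lY x.2 with hlab
  have hκ' : ∀ i, lab (κ.symm i) = lab i := fun i => by rw [← hκ, Equiv.apply_symm_apply]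
  let σ : J → Equiv.Perm (R0 ⊕ Φ × Y) := fun j =>
    { toFun := fun i => if lab i = some (j, true) then κ i else i
      invFun := fun i => if lab i = some (j, true) then κ.symm i else i
      left_inv := fun i => by by_cases h : lab i = some (j, true) <;> simp [h, hκ]
      right_inv := fun i => by by_cases h : lab i = some (j, true) <;> simp [h, hκ'] }
  choose B hB eB using fun j => mon_HH (Equiv.sumCongr (1 : Equiv.Perm Φ) (σ j))
    (Sum.elim (fun _ => -1) fun i => if lab i = some (j, true) then z i else -1)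
  choose C hC eC using exists_conj (Φ := Φ) (Y := Y) (R0 := R0)
  obtain ⟨u, P, hP⟩ := lemU (fun j => (L j).map fun y => (y, tb y)) hd
    (fun j => by rw [List.map_map]; exact hL j) (Sum.elim B C) (by rintro (j | y); exacts [hB j, hC y])
  set v : Y → unitaryGroup Φ ℂ := fun y => cond (tb y).2 (u (tb y).1) (u (tb y).1)⁻¹ with hv
  have h1 : ∀ j x k, ((Sum.elim (fun _ => -1) (fun i => if lab i = some (j, true) then z i else -1)
      x : Circle) : ℂ) * ((emb2 Φ (emb2 R0 (bd fun y => if y ∈ L j then v y else 1))).1 * P j)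
        (Equiv.sumCongr (1 : Equiv.Perm Φ) (σ j) x) k = P j x k := fun j x k => by
    have h := (hP j).2.2
    have e : ∀ y, cond (tb y).2 (emb (R0 ⊕ Φ × Y) (u (tb y).1)) (emb _ (u (tb y).1))⁻¹ =
      emb _ (v y) := fun y => by cases h : (tb y).2 <;> simp [hv, h]
    simp only [List.map_map, Function.comp_def, Sum.elim_inl, Sum.elim_inr, e, eC] at h
    rw [← prod_mulSingle v _ (hn j), map_list_prod, map_list_prod, map_list_prod]
    simp only [List.map_map, Function.comp_def]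
    rw [Submonoid.coe_mul, eB, mul_assoc] at h
    exact (mon_mul_apply _ _ _ _ _).symm.trans (congrFun (congrFun h x) k)
  have e2 : ∀ (U : unitaryGroup (R0 ⊕ Φ × Y) ℂ) j, (emb2 Φ U).1 * P j = fromBlocks
      (P j).toBlocks₁₁ (P j).toBlocks₁₂ (U.1 * (P j).toBlocks₂₁) (U.1 * (P j).toBlocks₂₂) :=
    fun U j => by
      conv_lhs => rw [← fromBlocks_toBlocks (P j)]
      show fromBlocks 1 0 0 U.1 * _ = _
      simp [fromBlocks_multiply]
  have h2 : ∀ j a k, P j (.inl a) k = 0 := fun j a k => by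
    have := h1 j (.inl a) k
    rw [e2] at this
    rcases k with k | k <;> simpa [toBlocks₁₁, toBlocks₁₂, neg_eq_self] using this
  have h3 : ∀ j, P j = fromBlocks 0 0 0 (P j).toBlocks₂₂ := fun j => by
    ext (a | a) (b | b)
    exacts [h2 _ _ _, h2 _ _ _, by rw [← (hP j).1.1]; simp [h2], rfl]
  have h4 : ∀ j i k, lab i ≠ some (j, true) → (P j).toBlocks₂₂ i k = 0 := fun j i k h => by
    have := h1 j (.inr i) (.inr k)
    rw [e2] at this
    simp only [Sum.elim_inr, h, if_false, Equiv.sumCongr_apply, Sum.map_inr, σ, Equiv.coe_fn_mk,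
      fromBlocks_apply₂₂] at this
    rcases i with r | ⟨a, y⟩
    · simpa [(bd_row _ _ _).1, toBlocks₂₂, neg_eq_self] using this
    · have hy : y ∉ L j := fun e => h ((hm j y).mp e)
      simpa [(bd_row _ _ _).2, hy, one_apply, toBlocks₂₂, neg_eq_self] using this
  have h5 : ∀ j, IsPr (P j).toBlocks₂₂ := fun j => by
    have := (hP j).1
    rw [h3 j, IsPr, star_eq_conjTranspose, fromBlocks_conjTranspose, fromBlocks_multiply] at this
    exact ⟨(fromBlocks_inj.mp this.1).2.2.2, by simpa using (fromBlocks_inj.mp this.2).2.2.2⟩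
  refine ⟨u, ∑ j, (P j).toBlocks₂₂, ⟨by simp [star_sum, (h5 _).1], ?_⟩, ?_, fun i k h => ?_, ?_⟩
  · rw [sum_mul_sum]
    refine sum_congr rfl fun j _ => (sum_eq_single j (fun j' _ h => ?_) (by simp)).trans (h5 j).2
    ext i k
    refine sum_eq_zero fun t _ => ?_
    by_cases e : lab t = some (j, true)
    · exact mul_eq_zero_of_right _ (h4 j' t k (by simp [e, h.symm]))
    · refine mul_eq_zero_of_left ?_ _
      rw [← (h5 j).1]
      simp [h4 j t i e]
  · have : ∀ j, trace (P j).toBlocks₂₂ = Fintype.card Φ := fun j => by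
      rw [← (hP j).2.1]
      conv_rhs => rw [h3 j]
      simp [trace]
    simp [trace_sum, this]
  · rw [Matrix.sum_apply]
    exact sum_eq_zero fun j _ => h4 j i k (h j)
  · rw [mul_sum]
    refine sum_congr rfl fun j _ => ?_
    ext i k
    rw [mul_assoc, mon_mul_apply]
    by_cases h : lab i = some (j, true)
    · have := h1 j (.inr i) (.inr k)
      rw [e2] at this
      simp only [Sum.elim_inr, h, if_true, Equiv.sumCongr_apply, Sum.map_inr, σ, Equiv.coe_fn_mk,
        fromBlocks_apply₂₂] at this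
      refine Eq.trans ?_ this
      rw [← hκ] at h
      rcases e : κ i with r | ⟨a, y⟩
      · rw [(bd_row _ _ _).1, (bd_row _ _ _).1]
      · rw [e] at h
        rw [(bd_row _ _ _).2, (bd_row _ _ _).2, if_pos ((hm j y).mpr h)]
    · rw [h4 j i k h, bd_zero v (p := fun i => lab i ≠ some (j, true)) (fun _ _ _ h => h) (h4 j) _ _
        (by rwa [hκ]), mul_zero]

variable {G : Type*} [Group G] {I I' : Type} [Fintype I] [DecidableEq I] [Fintype I']
  [DecidableEq I']

theorem m_cmp {A B : Matrix I I (MonoidAlgebra ℂ G)} (hA : A ∈ unitary _) (hB : B ∈ unitary _)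
    {J1 J2 P : Matrix I I ℂ} (u1 : J1 ∈ unitary _) (u2 : J2 ∈ unitary _) (h1 : J1 * J1 = 1)
    (h2 : J2 * J2 = 1) (hP : IsPr P) (h12 : J1 * J2 * P = P) (h0 : P * (J2 * P) = 0) {ρ : ℝ}
    (r0 : 0 ≤ ρ) (r1 : ρ < 1) : (tr G I).m ρ (A * cs G J1 * B) ≤ (tr G I).m ρ (A * cs G J2 * B) +
      Real.pi * (Fintype.card I - (trace J1).re / 2 - (trace J2).re / 2 - 2 * (trace P).re) := by
  have s1 : star J1 = J1 := left_inv_eq_right_inv u1.1 h1
  have s2 : star J2 = J2 := left_inv_eq_right_inv u2.1 h2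
  have c2 : ∀ M, J2 * (J2 * M) = M := fun M => by rw [← mul_assoc, h2, one_mul]
  have cP : ∀ M, P * (P * M) = P * M := fun M => by rw [← mul_assoc, hP.2]
  have c0 : ∀ M, P * (J2 * (P * M)) = 0 := fun M => by
    rw [← mul_assoc J2, ← mul_assoc, h0, zero_mul]
  have c12 : ∀ M, J1 * (J2 * (P * M)) = P * M := fun M => by rw [← mul_assoc, ← mul_assoc, h12]
  have c1 : ∀ M, J1 * (P * M) = J2 * (P * M) := fun M => by
    rw [← c12 M, ← mul_assoc, h1, one_mul, c12]
  obtain ⟨Q, hQ, q0, q1, q2⟩ : ∃ Q, IsPr Q ∧ trace Q = trace P ∧ J1 * Q = -Q ∧ J2 * Q = -Q := by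
    refine ⟨(2⁻¹ : ℂ) • ((1 - J2) * (P * (1 - J2))), ⟨?_, ?_⟩, ?_, ?_, ?_⟩
    · simp [s2, hP.1, mul_assoc]
    · have a1 : ∀ M, (1 - J2) * ((1 - J2) * M) = (2 : ℂ) • ((1 - J2) * M) := fun M => by
        simp only [sub_mul, one_mul, mul_sub J2, c2]; module
      have a2 : ∀ M, P * ((1 - J2) * (P * M)) = P * M := fun M => by
        rw [sub_mul, one_mul, mul_sub, cP, c0, sub_zero]
      simp only [smul_mul_assoc, mul_smul_comm, mul_assoc, a1, a2]
      module
    · have : trace (J2 * P) = 0 := by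
        rw [← hP.2, ← mul_assoc, trace_mul_comm, h0, trace_zero]
      rw [trace_smul, trace_mul_comm, mul_assoc]
      simp only [mul_sub, sub_mul, one_mul, mul_one, h2, trace_sub, trace_mul_comm P, this]
      simp; ring
    · simp only [mul_smul_comm, sub_mul, one_mul, mul_sub J1, c1, c12]
      module
    · simp only [mul_smul_comm, sub_mul, one_mul, mul_sub J2 (P * _), c2]
      module
  have key : ∀ K : Matrix I I ℂ, star K = K → K * K = 1 → K * Q = -Q →
      IsPr ((2⁻¹ : ℂ) • (1 - K) - Q) ∧ Q * K = -Q := fun K s h q => by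
    have q' : Q * K = -Q := by simpa [s, hQ.1] using congrArg star q
    refine ⟨⟨by simp [s, hQ.1], ?_⟩, q'⟩
    simp only [sub_mul, mul_sub, smul_mul_assoc, mul_smul_comm, one_mul, mul_one, h, q, q', hQ.2]
    module
  obtain ⟨p1, -⟩ := key J1 s1 h1 q1
  obtain ⟨p2, q2'⟩ := key J2 s2 h2 q2
  have e : J1 = (1 - (2 : ℂ) • ((2⁻¹ : ℂ) • (1 - J1) - Q)) *
      ((1 - (2 : ℂ) • ((2⁻¹ : ℂ) • (1 - J2) - Q)) * J2) := by
    simp only [sub_mul, mul_sub, smul_mul_assoc, mul_smul_comm, one_mul, mul_one, h2, q1, q2', hQ.2,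
      mul_neg]
    module
  have u3 := cs_mem (G := G) u2
  have k1 := m_pr hA (mul_mem (mul_mem (cs_mem (Tr.refl_unitary p2.1 p2.2)) u3) hB) p1 r0 r1
  have k2 := m_pr hA (mul_mem u3 hB) p2 r0 r1
  rw [← mul_assoc (A * _), mul_assoc A, ← map_mul, ← map_mul, ← e, map_mul] at k1
  simp only [mul_assoc, trace_sub, trace_smul, trace_one, q0, smul_eq_mul, Complex.sub_re] at k1 k2 ⊢
  have e2 : ∀ x : ℂ, (2⁻¹ * x).re = x.re / 2 := fun x => by simp; ring
  simp only [e2, Complex.sub_re, Complex.natCast_re] at k1 k2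
  linarith

/-- The weighted shift attached to a pairing. -/
noncomputable def Wf (α β : I → G × Circle) (K : Matrix I I ℂ) (σ : Equiv.Perm I) :
    Matrix I I (MonoidAlgebra ℂ G) :=
  mon 1 (fun i => ee (α i)) * cs G K * (mon 1 (fun i => ee (β i)) * mon σ 1)

theorem Wf_sum (α β : I ⊕ I' → G × Circle) (K : Matrix I I ℂ) (K' : Matrix I' I' ℂ)
    (σ : Equiv.Perm I) (σ' : Equiv.Perm I') : Wf α β (fromBlocks K 0 0 K') (Equiv.sumCongr σ σ') =
      fromBlocks (Wf (fun i => α (.inl i)) (fun i => β (.inl i)) K σ) 0 0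
        (Wf (fun i => α (.inr i)) (fun i => β (.inr i)) K' σ') := by
  rw [Wf, ← Equiv.Perm.sumCongr_one]
  simp only [mon_sum, cs_blocks, fromBlocks_multiply, Matrix.mul_zero, Matrix.zero_mul, add_zero,
    zero_add]
  rfl

theorem Wf_mon (α β : I → G × Circle) (a σ : Equiv.Perm I) (z : I → Circle) :
    Wf α β (mon a fun i => z i) σ = mon (σ * a) fun i => ee (α i * (1, z i) * β (a i)) := by
  simp [Wf, cs_mon, mon_mul]

theorem Wf_fm (α β : Y → G × Circle) (r s : Equiv.Perm Y) (v : Y → Matrix Φ Φ ℂ) {c : Circle}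
    (h : ∀ y, α y * β (r y) = (1, c)) :
    Wf (fun x => α x.2) (fun x => β x.2) (fm r v) (Equiv.prodCongr (1 : Equiv.Perm Φ) s) =
      cs G ((c : ℂ) • fm (s * r) v) := by
  have e : mon 1 (fun x => ee (α x.2)) * cs G (fm r v) * mon 1 (fun x => ee (β x.2)) =
      cs G ((c : ℂ) • fm r v) := by
    refine Matrix.ext fun x x' => ?_
    simp only [mon_one, mul_diagonal, diagonal_mul, cs_apply, fm, of_apply, Matrix.smul_apply]
    split_ifs with e
    · have h1 : (α x.2).1 * (β x'.2).1 = 1 := e ▸ congrArg Prod.fst (h x.2)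
      have h2 : ((α x.2).2 : ℂ) * (β x'.2).2 = c := e ▸ congrArg (fun p => (p.2 : ℂ)) (h x.2)
      simp only [ee_apply, MonoidAlgebra.single_mul_single, mul_one, h1, ← h2, smul_eq_mul]
      congr 1; ring
    · simp
  rw [Wf, ← mul_assoc, e, ← cs_perm, mon_perm, fm_mon, ← map_mul, smul_mul_assoc, fm_mul]
  simp

end Vale.Agent.P174
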