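import Mathlib

/-!
# P174: the argument functional of a unitary with respect to a positive trace
-/

namespace Vale.Agent.P174

open Finset Filter Topology Complex

/-- The regularised total argument attached to a sequence of moments. -/
noncomputable def mm (ρ : ℝ) (s : ℕ → ℂ) : ℝ := -2 * ∑' k, ρ ^ k * (s k).im / k

theorem mm_bound {ρ C : ℝ} (h0 : 0 ≤ ρ) {x : ℝ} (hx : |x| ≤ C) (k : ℕ) :
    ‖ρ ^ k * x / k‖ ≤ ρ ^ k * C := by
  rw [Real.norm_eq_abs, abs_div, abs_mul, abs_of_nonneg (pow_nonneg h0 k), Nat.abs_cast]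
  rcases k with _ | k
  · simpa using (abs_nonneg _).trans hx
  · exact (div_le_self (by positivity) (by simp)).trans (by gcongr)

theorem mm_summable {ρ C : ℝ} (h0 : 0 ≤ ρ) (h1 : ρ < 1) {s : ℕ → ℂ} (hs : ∀ k, ‖s k‖ ≤ C) :
    Summable fun k => ρ ^ k * (s k).im / k :=
  .of_norm_bounded ((summable_geometric_of_lt_one h0 h1).mul_right C) fun k =>
    mm_bound h0 ((abs_im_le_norm _).trans (hs k)) k

/-- The contribution of one point on a cycle of length `r`. -/
noncomputable def FF (r : ℕ) (w : Circle) (ρ : ℝ) : ℝ :=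
  mm ρ fun k => if r ∣ k then (w : ℂ) ^ k else 0

theorem mm_sum {ι : Type} [Fintype ι] {ρ : ℝ} (h0 : 0 ≤ ρ) (h1 : ρ < 1) (r : ι → ℕ)
    (w : ι → Circle) :
    mm ρ (fun k => ∑ i, if r i ∣ k then (w i : ℂ) ^ k else 0) = ∑ i, FF (r i) (w i) ρ := by
  simp only [FF, mm, ← mul_sum, im_sum]
  rw [← Summable.tsum_finsetSum fun i _ => mm_summable h0 h1 (C := 1) fun k => by
    split_ifs <;> simp [Circle.norm_coe]]
  simp only [mul_sum, sum_div]

theorem FF_eq {r : ℕ} (hr : r ≠ 0) (w : Circle) {ρ : ℝ} (h0 : 0 ≤ ρ) (h1 : ρ < 1) :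
    FF r w ρ = 2 / r * arg (1 - (ρ * w) ^ r) := by
  have h2 : ‖((ρ : ℂ) * w) ^ r‖ < 1 := by
    rw [norm_pow, norm_mul, Circle.norm_coe, mul_one, norm_real, Real.norm_of_nonneg h0]
    exact pow_lt_one₀ h0 h1 hr
  have h3 := ((hasSum_taylorSeries_neg_log h2).mapL imCLM).div_const (r : ℝ)
  have h4 : HasSum (fun k : ℕ => ρ ^ k * (if r ∣ k then (w : ℂ) ^ k else 0).im / k)
      (imCLM (-log (1 - (ρ * w) ^ r)) / r) := by
    refine ((mul_right_injective₀ hr).hasSum_iff fun k hk => ?_).mp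
      ((congrArg (HasSum · _) (funext fun k => ?_)).mp h3)
    · rw [if_neg fun ⟨c, e⟩ => hk ⟨c, e.symm⟩]; simp
    · simp only [Function.comp, dvd_mul_right, if_true, imCLM_apply, ← pow_mul, mul_pow,
        div_natCast_im, ← ofReal_pow, im_ofReal_mul, Nat.cast_mul]
      ring
  rw [FF, mm, h4.tsum_eq, imCLM_apply, neg_im, log_im]
  ring

theorem FF_le {r : ℕ} (hr : r ≠ 1) (w : Circle) {ρ : ℝ} (h0 : 0 ≤ ρ) (h1 : ρ < 1) :
    FF r w ρ ≤ Real.pi / 2 := by
  rcases eq_or_ne r 0 with rfl | h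
  · have : ∀ k : ℕ, ρ ^ k * (if 0 ∣ k then (w : ℂ) ^ k else 0).im / k = 0 := fun k => by
      rcases k with _ | k <;> simp
    simp only [FF, mm, this, tsum_zero, mul_zero]
    positivity
  rw [FF_eq h w h0 h1]
  have h2 : arg (1 - (ρ * w) ^ r) ≤ Real.pi / 2 := by
    refine le_of_abs_le (abs_arg_le_pi_div_two_iff.mpr ?_)
    rw [sub_re, one_re, sub_nonneg]
    refine (re_le_norm _).trans ?_
    rw [norm_pow, norm_mul, Circle.norm_coe, mul_one, norm_real, Real.norm_of_nonneg h0]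
    exact pow_le_one₀ h0 h1.le
  have h3 : (2 : ℝ) ≤ r := by exact_mod_cast (by omega : 2 ≤ r)
  refine (mul_le_mul_of_nonneg_left h2 (by positivity)).trans ?_
  exact mul_le_of_le_one_left (by positivity) ((div_le_one (by linarith)).mpr h3)

theorem FF_lim {r : ℕ} (hr : r ≠ 0) {w : Circle} {x : ℝ} (hx0 : 0 < x) (hx : x < 2 * Real.pi)
    (hw : w ^ r = Circle.exp x) : Tendsto (FF r w) (𝓝[<] 1) (𝓝 ((x - Real.pi) / r)) := by
  have hs : 0 < 2 * Real.sin (x / 2) :=
    mul_pos two_pos (Real.sin_pos_of_pos_of_lt_pi (by linarith) (by linarith))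
  have e : 1 - (w : ℂ) ^ r = (2 * Real.sin (x / 2) : ℝ) *
      (cos ((x - Real.pi) / 2 : ℝ) + sin ((x - Real.pi) / 2 : ℝ) * I) := by
    rw [← Circle.coe_pow, hw, Circle.coe_exp, ← exp_mul_I]
    have e1 : ((x - Real.pi) / 2 : ℝ) * I = x / 2 * I + -(Real.pi / 2 * I) := by push_cast; ring
    have e2 : exp (x * I) = exp (x / 2 * I) * exp (x / 2 * I) := by rw [← exp_add]; ring_nf
    have e3 : exp (-(x / 2) * I) * exp (x / 2 * I) = 1 := by rw [← exp_add]; simp
    rw [e1, exp_add, exp_neg, exp_pi_div_two_mul_I, inv_I, e2]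
    push_cast
    rw [two_sin]
    linear_combination -e3 + (exp (-(x / 2) * I) - exp (x / 2 * I)) * exp (x / 2 * I) * I_mul_I
  have ha : arg (1 - (w : ℂ) ^ r) = (x - Real.pi) / 2 := by
    rw [e, arg_mul_cos_add_sin_mul_I hs ⟨by linarith, by linarith⟩]
  have hc : ContinuousAt (fun ρ : ℝ => 2 / r * arg (1 - (ρ * w) ^ r)) 1 := by
    refine continuousAt_const.mul (ContinuousAt.comp (f := fun ρ : ℝ => 1 - ((ρ : ℂ) * w) ^ r)
      (continuousAt_arg ?_) (by fun_prop))
    simp only [ofReal_one, one_mul]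
    refine mem_slitPlane_iff_arg.mpr ⟨by rw [ha]; linarith, fun h => ?_⟩
    rw [h, eq_comm, mul_eq_zero, ← exp_mul_I] at e
    exact e.elim (by exact_mod_cast hs.ne') (exp_ne_zero _)
  have h2 := hc.tendsto.mono_left (nhdsWithin_le_nhds (s := Set.Iio 1))
  simp only [ofReal_one, one_mul, ha] at h2
  rw [show (x - Real.pi) / r = 2 / r * ((x - Real.pi) / 2) by ring]
  refine h2.congr' ?_
  filter_upwards [Ioo_mem_nhdsLT one_pos] with ρ hρ using (FF_eq hr w hρ.1.le hρ.2).symm

/-- A positive trace. -/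
structure Tr (R : Type*) [Ring R] [Algebra ℂ R] [StarRing R] where
  τ : R →ₗ[ℂ] ℂ
  cyc : ∀ a b, τ (a * b) = τ (b * a)
  st : ∀ a, τ (star a) = star (τ a)
  pos : ∀ a, 0 ≤ (τ (star a * a)).re

namespace Tr
variable {R : Type*} [Ring R] [Algebra ℂ R] [StarRing R] [StarModule ℂ R] (T : Tr R)

theorem bound {U : R} (hU : U ∈ unitary R) : ‖T.τ U‖ ≤ (T.τ 1).re := by
  obtain ⟨c, hc, e⟩ := exists_norm_eq_mul_self (T.τ U)
  have h := T.pos (c • U - 1)
  have h1 : star c * c = 1 := by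
    rw [star_def, conj_mul', hc]; simp
  have h2 : star (c • U - 1) * (c • U - 1) = 1 + 1 - c • U - star (c • U) := by
    simp only [star_sub, star_smul, star_one, sub_mul, mul_sub, smul_mul_assoc, mul_smul_comm,
      hU.1, mul_one, one_mul]
    linear_combination (norm := module) h1 • (1 : R)
  rw [h2, map_sub, map_sub, map_add, T.st, map_smul, smul_eq_mul, ← e] at h
  simp only [sub_re, add_re, ofReal_re, star_def, conj_ofReal] at h
  linarith

omit [StarModule ℂ R] in
theorem deriv_pow (A B C : R) (w : ℂ) (h : B = (A + w • B) * C) (k : ℕ) : ∃ d : R,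
    (∀ X, HasDerivAt (fun w : ℂ => T.τ ((A + w • B) ^ k * X)) (T.τ (d * X)) w) ∧
      ∀ m, T.τ (d * (A + w • B) ^ m) = k * T.τ ((A + w • B) ^ (k + m) * C) := by
  induction k with
  | zero => exact ⟨0, fun X => by simpa using hasDerivAt_const _ _, by simp⟩
  | succ k ih =>
    obtain ⟨d, h1, h2⟩ := ih
    refine ⟨d * (A + w • B) + (A + w • B) ^ k * B, fun X => ?_, fun m => ?_⟩
    · have := (h1 (A * X)).fun_add ((hasDerivAt_id' w).fun_mul (h1 (B * X)))
      simp only [pow_succ, mul_assoc, add_mul, mul_add, smul_mul_assoc, mul_smul_comm, map_add,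
        map_smul, smul_eq_mul]
      refine this.congr_deriv ?_
      ring
    · rw [add_mul, mul_assoc, ← pow_succ', map_add, h2, T.cyc (_ * B), ← mul_assoc, ← pow_add]
      nth_rewrite 3 [h]
      rw [← mul_assoc, ← pow_succ, show m + k + 1 = k + 1 + m by ring,
        show k + (m + 1) = k + 1 + m by ring]
      push_cast; ring

omit [StarModule ℂ R] in
theorem re_star (a : R) : (T.τ (star a)).re = (T.τ a).re := by rw [T.st]; simp

theorem poisson {U P : R} (hU : U ∈ unitary R) (hP : star P = P) (hP2 : P * P = P) {ρ b : ℝ}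
    (h0 : 0 ≤ ρ) (h1 : ρ < 1) (hb : Tendsto (fun n => ∑ k ∈ range n,
      ρ ^ (k + 1) * (T.τ (U ^ (k + 1) * P)).re) atTop (𝓝 b)) : 0 ≤ (T.τ P).re + 2 * b := by
  set S : ℕ → R := fun n => ∑ k ∈ range n, ((ρ : ℂ) • U) ^ k with hS
  set a : ℕ → ℝ := fun n => (T.τ (star (S n) * S n * P)).re with ha
  have ha0 : ∀ n, 0 ≤ a n := fun n => by
    have := T.pos (S n * P)
    rwa [star_mul, hP, mul_assoc, T.cyc, mul_assoc, mul_assoc, hP2, ← mul_assoc] at this
  have hrec : ∀ n, (T.τ P).re + 2 * ∑ k ∈ range n, ρ ^ (k + 1) * (T.τ (U ^ (k + 1) * P)).re =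
      a (n + 1) - ρ ^ 2 * a n := fun n => by
    have e1 : S (n + 1) = (ρ : ℂ) • (U * S n) + 1 := by
      simp only [hS, sum_range_succ', pow_succ', pow_zero, mul_sum, smul_sum, smul_mul_assoc]
    have e2 : ∑ k ∈ range n, ρ ^ (k + 1) * (T.τ (U ^ (k + 1) * P)).re =
        ρ * (T.τ (U * S n * P)).re := by
      simp only [hS, mul_sum, sum_mul, map_sum, re_sum, smul_pow, mul_smul_comm, smul_mul_assoc,
        map_smul, smul_eq_mul, ← ofReal_pow, re_ofReal_mul, pow_succ', mul_assoc]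
    have e3 : (T.τ (star (U * S n) * P)).re = (T.τ (U * S n * P)).re := by
      rw [← T.re_star, star_mul, star_star, hP, T.cyc]
    have e4 : star (U * S n) * (U * S n) = star (S n) * S n := by
      rw [star_mul, mul_assoc, ← mul_assoc (star U), hU.1, one_mul]
    simp only [ha, e1, e2, star_add, star_smul, star_one, add_mul, mul_add, smul_mul_assoc,
      mul_smul_comm, e4, map_add, map_smul, star_def, conj_ofReal, smul_eq_mul, add_re,
      re_ofReal_mul, e3, one_mul, mul_one]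
    ring
  refine ge_of_tendsto' ((hb.const_mul 2).const_add (T.τ P).re).cesaro fun n => ?_
  refine mul_nonneg (by positivity) ?_
  simp only [hrec]
  have : ∑ k ∈ range n, (a (k + 1) - a k) ≤ ∑ k ∈ range n, (a (k + 1) - ρ ^ 2 * a k) :=
    sum_le_sum fun k _ => sub_le_sub_left
      (mul_le_of_le_one_left (ha0 k) (pow_le_one₀ h0 h1.le)) _
  rw [sum_range_sub] at this
  have h2 : a 0 = 0 := by simp [ha, hS]
  linarith [ha0 n]

theorem rot_unitary {P : R} (hP : star P = P) (hP2 : P * P = P) (t : ℝ) :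
    1 + (exp (t * I) - 1) • P ∈ unitary R := by
  have e : exp (t * I) * exp (-(t * I)) = 1 := by rw [← exp_add]; simp
  have e2 : star (1 + (exp (t * I) - 1) • P) = 1 + (exp (-(t * I)) - 1) • P := by
    simp [hP, ← exp_conj]
  rw [Unitary.mem_iff, e2]
  simp only [mul_add, add_mul, mul_one, one_mul, mul_smul_comm, smul_mul_assoc, hP2]
  constructor <;> linear_combination (norm := module) e • P

theorem refl_unitary {P : R} (hP : star P = P) (hP2 : P * P = P) :
    1 - (2 : ℂ) • P ∈ unitary R := by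
  have := rot_unitary hP hP2 Real.pi
  rwa [exp_pi_mul_I, show (-1 - 1 : ℂ) = -2 by norm_num, neg_smul, ← sub_eq_add_neg] at this

/-- The total argument. -/
noncomputable def m (ρ : ℝ) (W : R) : ℝ := mm ρ fun k => T.τ (W ^ k)

omit [StarModule ℂ R] in
theorem m_cyc (ρ : ℝ) (A B : R) : T.m ρ (A * B) = T.m ρ (B * A) := by
  unfold m
  congr 1
  funext k
  rcases k with _ | k
  · simp
  · rw [pow_succ, ← mul_assoc, T.cyc, ← mul_assoc, ← mul_pow_mul, pow_succ, mul_assoc _ B]

theorem mono {U P : R} (hU : U ∈ unitary R) (hP : star P = P) (hP2 : P * P = P) {ρ : ℝ}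
    (h0 : 0 ≤ ρ) (h1 : ρ < 1) :
    T.m ρ (U * (1 - (2 : ℂ) • P)) ≤ T.m ρ U + Real.pi * (T.τ P).re := by
  set Y : ℝ → R := fun t => U + (exp (t * I) - 1) • (U * P) with hY
  have hYU : ∀ t, Y t ∈ unitary R := fun t => by
    have := mul_mem hU (rot_unitary hP hP2 t)
    rwa [mul_add, mul_one, mul_smul_comm] at this
  have hb : ∀ t k, |(T.τ (Y t ^ k * P)).re| ≤ (T.τ 1).re := fun t k => by
    have e1 := T.bound (pow_mem (hYU t) k)
    have e2 := T.bound (mul_mem (pow_mem (hYU t) k) (refl_unitary hP hP2))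
    rw [mul_sub, mul_one, mul_smul_comm, map_sub, map_smul, smul_eq_mul] at e2
    have e3 := norm_sub_le_of_le e1 e2
    rw [sub_sub_cancel, norm_mul, norm_ofNat] at e3
    linarith [abs_re_le_norm (T.τ (Y t ^ k * P))]
  have hd : ∀ (k : ℕ) t, HasDerivAt (fun t => ρ ^ k * (T.τ (Y t ^ k)).im / k)
      (ρ ^ k * (k * (T.τ (Y t ^ k * P)).re) / k) t := fun k t => by
    have e : exp (-(t * I)) * exp (t * I) = 1 := by rw [← exp_add]; simp
    obtain ⟨d, d1, d2⟩ := T.deriv_pow U (U * P) (exp (-(t * I)) • P) (exp (t * I) - 1) (by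
      simp only [mul_smul_comm, add_mul, smul_mul_assoc, mul_assoc, hP2]
      linear_combination (norm := module) -e • (U * P)) k
    have d3 : HasDerivAt (fun t : ℝ => exp (t * I) - 1) (exp (t * I) * I) t := by
      simpa using (((hasDerivAt_id (t : ℂ)).mul_const I).cexp.comp_ofReal).sub_const 1
    have d4 := imCLM.hasFDerivAt.comp_hasDerivAt t ((d1 1).comp t d3)
    have d5 := d2 0
    simp only [pow_zero, add_zero, mul_smul_comm, map_smul, smul_eq_mul] at d5
    simp only [mul_one, Function.comp_def, imCLM_apply] at d4 d5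
    refine ((d4.const_mul (ρ ^ k)).div_const (k : ℝ)).congr_deriv ?_
    rw [d5, show (k : ℂ) * (exp (-(t * I)) * T.τ (Y t ^ k * P)) * (exp (t * I) * I) =
      (k : ℝ) * (T.τ (Y t ^ k * P) * I) by push_cast; linear_combination k * T.τ (Y t ^ k * P) * I * e]
    simp
  have hb2 : ∀ (k : ℕ) t, ‖ρ ^ k * (k * (T.τ (Y t ^ k * P)).re) / k‖ ≤ ρ ^ k * (T.τ 1).re :=
    fun k t => by
      rcases k with _ | k
      · simpa using (abs_nonneg _).trans (hb t 0)
      · rw [mul_div_assoc, mul_div_cancel_left₀ _ (by positivity), norm_mul, norm_pow,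
          Real.norm_of_nonneg h0]
        exact mul_le_mul_of_nonneg_left (hb t _) (pow_nonneg h0 _)
  have hg := (summable_geometric_of_lt_one h0 h1).mul_right (T.τ 1).re
  have hD := fun t => ((hasDerivAt_tsum hg hd hb2 (mm_summable h0 h1 fun k =>
    T.bound (pow_mem (hYU 0) k)) t).const_mul (-2)).sub ((hasDerivAt_id' t).mul_const (T.τ P).re)
  have hA := antitone_of_hasDerivAt_nonpos hD (fun t => by
    have h2 := (tendsto_add_atTop_iff_nat 1).mpr
      (Summable.of_norm_bounded hg (hb2 · t)).hasSum.tendsto_sum_nat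
    have h3 := T.poisson (hYU t) hP hP2 h0 h1 (h2.congr fun n => by
      rw [sum_range_succ', Nat.cast_zero, div_zero, add_zero]
      exact sum_congr rfl fun k _ => by
        rw [mul_div_assoc, mul_div_cancel_left₀ _ (by positivity)])
    simp only [Pi.zero_apply]
    linarith) Real.pi_pos.le
  have e1 : Y Real.pi = U * (1 - (2 : ℂ) • P) := by
    simp only [hY, exp_pi_mul_I, mul_sub, mul_one, mul_smul_comm]; module
  have e2 : Y 0 = U := by simp [hY]
  simp only [Pi.sub_apply, e1, e2] at hA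
  simp only [m, mm]
  linarith

theorem mono' {A B P : R} (hA : A ∈ unitary R) (hB : B ∈ unitary R) (hP : star P = P)
    (hP2 : P * P = P) {ρ : ℝ} (h0 : 0 ≤ ρ) (h1 : ρ < 1) :
    T.m ρ (A * (1 - (2 : ℂ) • P) * B) ≤ T.m ρ (A * B) + Real.pi * (T.τ P).re := by
  rw [T.m_cyc, ← mul_assoc, T.m_cyc ρ A]
  exact T.mono (mul_mem hB hA) hP hP2 h0 h1

end Tr

end Vale.Agent.P174
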